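import Vale.Agent.P042.Bdl.B1
import Vale.Agent.P042.LB.H522.Basic

set_option autoImplicit false

/-!
P042, lower bounds: block placement of a ranked residue system.
-/

namespace Vale.Agent.P042.LB.Sq409

open Polynomial Finset

/-- Ranks may be bounded by a larger number. -/
theorem sys_mono {Q n H H' : ℕ} (hX : Sys Q n H) (h : H ≤ H') : Sys Q n H' := by
  obtain ⟨X, R, h1, h2, h3, h4⟩ := hX
  exact ⟨X, R, h1, h2, fun x hx => (h3 x hx).trans_le h, h4⟩

/-- Placement of a ranked residue system in `H` blocks of length `Q * l`: a difference which is a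
square is smaller than the block length and divisible by `Q`. -/
theorem sys_blocks {Q n H : ℕ} (hX : Sys Q n H) (l : ℕ) :
    ∃ A : Finset ℤ, A ⊆ Finset.Icc 1 ((Q * l * H : ℕ) : ℤ) ∧ A.card = n * l ∧
      ∀ x ∈ A, ∀ y ∈ A, ∀ s : ℤ, y - x = s ^ 2 → s ^ 2 < (Q : ℤ) * l ∧ (Q : ℤ) ∣ s ^ 2 := by
  obtain ⟨X, R, hc, hl, hr, hp⟩ := hX
  let f : ℕ × ℕ → ℤ := fun p => 1 + p.1 + (Q : ℤ) * p.2 + (Q : ℤ) * l * ((H : ℤ) - 1 - R p.1)
  have hkey : ∀ p ∈ X ×ˢ range l, ∀ p' ∈ X ×ˢ range l, ∀ s : ℤ, f p' - f p = s ^ 2 →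
      p'.1 = p.1 := by
    rintro ⟨x, j⟩ h1 ⟨x', j'⟩ h2 s hs
    simp only [mem_product, mem_range] at h1 h2
    simp only [f] at hs
    have hdv : (Q : ℤ) ∣ (x' : ℤ) - x - s ^ 2 := by
      refine ⟨-((j' : ℤ) - j) - l * ((R x : ℤ) - R x'), ?_⟩
      linear_combination hs
    rcases hp x h1.1 x' h2.1 s hdv with h | h
    · exact h.symm
    · exfalso
      have hxl : (x' : ℤ) + 1 ≤ Q := by exact_mod_cast hl x' h2.1
      have hjl : (j' : ℤ) + 1 ≤ l := by exact_mod_cast h2.2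
      have hRR : (R x : ℤ) + 1 ≤ R x' := by exact_mod_cast h
      have hx0 : (0 : ℤ) ≤ x := Int.natCast_nonneg _
      have hj0 : (0 : ℤ) ≤ j := Int.natCast_nonneg _
      have hQ0 : (0 : ℤ) ≤ Q := Int.natCast_nonneg _
      have hl0 : (0 : ℤ) ≤ l := Int.natCast_nonneg _
      have e1 : (Q : ℤ) * ((j' : ℤ) + 1) ≤ Q * l := mul_le_mul_of_nonneg_left hjl hQ0
      have e2 : (Q : ℤ) * l * ((R x : ℤ) + 1) ≤ Q * l * R x' :=
        mul_le_mul_of_nonneg_left hRR (mul_nonneg hQ0 hl0)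
      have e3 : (0 : ℤ) ≤ Q * j := mul_nonneg hQ0 hj0
      have e4 : (0 : ℤ) ≤ s ^ 2 := sq_nonneg s
      nlinarith only [hs, e1, e2, e3, e4, hxl, hx0]
  have hinj : Set.InjOn f (X ×ˢ range l : Finset (ℕ × ℕ)) := by
    intro p h1 p' h2 he
    have h1' : p ∈ X ×ˢ range l := h1
    have h2' : p' ∈ X ×ˢ range l := h2
    have e := hkey p h1' p' h2' 0 (by rw [he]; ring)
    obtain ⟨x, j⟩ := p
    obtain ⟨x', j'⟩ := p'
    simp only at e
    subst e
    simp only [mem_product, mem_range] at h1'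
    have hQ : (0 : ℤ) < Q := by
      have := hl x' h1'.1
      exact_mod_cast lt_of_le_of_lt (Nat.zero_le _) this
    simp only [f] at he
    have e2 : (Q : ℤ) * j = Q * j' := by linear_combination he
    have e3 : (j : ℤ) = j' := mul_left_cancel₀ hQ.ne' e2
    have e4 : j = j' := by exact_mod_cast e3
    rw [e4]
  refine ⟨(X ×ˢ range l).image f, ?_, ?_, ?_⟩
  · intro z hz
    simp only [mem_image] at hz
    obtain ⟨⟨x, j⟩, h1, rfl⟩ := hz
    simp only [mem_product, mem_range] at h1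
    have hxl : (x : ℤ) + 1 ≤ Q := by exact_mod_cast hl x h1.1
    have hjl : (j : ℤ) + 1 ≤ l := by exact_mod_cast h1.2
    have hrl : (R x : ℤ) + 1 ≤ H := by exact_mod_cast hr x h1.1
    have hx0 : (0 : ℤ) ≤ x := Int.natCast_nonneg _
    have hj0 : (0 : ℤ) ≤ j := Int.natCast_nonneg _
    have hQ0 : (0 : ℤ) ≤ Q := Int.natCast_nonneg _
    have hl0 : (0 : ℤ) ≤ l := Int.natCast_nonneg _
    have hR0 : (0 : ℤ) ≤ R x := Int.natCast_nonneg _
    have e1 : (Q : ℤ) * ((j : ℤ) + 1) ≤ Q * l := mul_le_mul_of_nonneg_left hjl hQ0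
    have e2 : (0 : ℤ) ≤ Q * l * ((H : ℤ) - 1 - R x) :=
      mul_nonneg (mul_nonneg hQ0 hl0) (by linarith only [hrl])
    have e3 : (0 : ℤ) ≤ Q * j := mul_nonneg hQ0 hj0
    have e4 : (0 : ℤ) ≤ Q * l * R x := mul_nonneg (mul_nonneg hQ0 hl0) hR0
    simp only [mem_Icc, f]
    push_cast
    constructor
    · linarith only [hx0, e2, e3]
    · nlinarith only [hxl, e1, e4]
  · rw [card_image_of_injOn hinj, card_product, card_range, hc]
  · intro z hz z' hz' s hs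
    simp only [mem_image] at hz hz'
    obtain ⟨⟨x, j⟩, h1, rfl⟩ := hz
    obtain ⟨⟨x', j'⟩, h2, rfl⟩ := hz'
    have e := hkey _ h1 _ h2 s hs
    simp only at e
    subst e
    simp only [mem_product, mem_range] at h1 h2
    have hQ : (0 : ℤ) < Q := by
      have := hl x' h1.1
      exact_mod_cast lt_of_le_of_lt (Nat.zero_le _) this
    simp only [f] at hs
    have e1 : s ^ 2 = Q * ((j' : ℤ) - j) := by linear_combination -hs
    have hjl : (j' : ℤ) + 1 ≤ l := by exact_mod_cast h2.2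
    have hj0 : (0 : ℤ) ≤ j := Int.natCast_nonneg _
    refine ⟨?_, ⟨_, e1⟩⟩
    rw [e1]
    exact mul_lt_mul_of_pos_left (by linarith only [hjl, hj0]) hQ

/-- One scale of the construction. -/
theorem step (g : ℤ[X]) (hg : Squarefree (g.map (Int.castRingHom ℚ))) (hd : 1 ≤ g.natDegree)
    (R : ℕ) (hR : 0 < R) (c1 : ℕ) :
    ∃ C0 : ℕ, 0 < C0 ∧ ∀ m n H l : ℕ, 0 < m → m.primeFactors ⊆ R.primeFactors →
      Sys (m ^ 2) n H → m ^ 2 * l ≤ c1 * m ^ (2 * g.natDegree) →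
      n * l ≤ C0 * rMax (g ^ 2) (m ^ 2 * l * H) := by
  classical
  obtain ⟨C, hC⟩ := root_card g hg R hR
  obtain ⟨K0, n0, hK0, hsm⟩ := small_card g hd
  set K : ℕ := n0 + 1 + K0 * (c1 + 1) with hK
  refine ⟨2 * (C * K) + 1, Nat.succ_pos _, ?_⟩
  intro m n H l hm hmR hX hl
  obtain ⟨A, hA, hAc, hAd⟩ := sys_blocks hX l
  let S : Finset ℕ := (range (K * m)).filter (fun k : ℕ => (m : ℤ) ∣ g.eval (k : ℤ))
  have hS : S.card ≤ C * K := hC m hm hmR K
  let E : Finset ℤ := (S.image (fun k : ℕ => (g.eval (k : ℤ)) ^ 2)).erase 0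
  have hE : E.card ≤ C * K := (card_erase_le.trans card_image_le).trans hS
  obtain ⟨B, hBA, hBc, hBd⟩ := greedy_sub A E (notMem_erase _ _)
  have hfree : DiffFree (g ^ 2) B := by
    rintro d ⟨hd1, hd2⟩
    obtain ⟨k, hk, hkd⟩ := hd2
    rw [Set.mem_sub] at hd1
    obtain ⟨y, hy, x, hx, hxy⟩ := hd1
    rw [Set.mem_singleton_iff]
    by_contra hne
    rw [eval_pow] at hkd
    have hyx : y - x = (g.eval (k : ℤ)) ^ 2 := by rw [hkd]; exact hxy
    obtain ⟨h1, h2⟩ := hAd x (hBA hx) y (hBA hy) _ hyx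
    have h3 : (m : ℤ) ∣ g.eval (k : ℤ) := by
      push_cast at h2
      exact (Int.pow_dvd_pow_iff (by norm_num)).1 h2
    apply hBd x hx y hy
    rw [hyx]
    refine mem_erase.2 ⟨by rw [hkd]; exact hne, mem_image.2 ⟨k, mem_filter.2 ⟨mem_range.2 ?_, h3⟩, rfl⟩⟩
    rcases lt_or_ge k n0 with hkn | hkn
    · calc k < n0 := hkn
        _ ≤ K := by rw [hK]; omega
        _ = K * 1 := (mul_one _).symm
        _ ≤ K * m := Nat.mul_le_mul_left _ hm
    · have h4 := hsm k hkn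
      set G : ℤ := g.eval (k : ℤ) with hG
      set e : ℕ := g.natDegree with he
      have h5 : ((k : ℤ) ^ e) ^ 2 ≤ ((K0 : ℤ) * |G|) ^ 2 :=
        pow_le_pow_left₀ (by positivity) h4 2
      have h6 : ((K0 : ℤ) * |G|) ^ 2 = (K0 : ℤ) ^ 2 * G ^ 2 := by
        rw [mul_pow, sq_abs]
      have h7 : G ^ 2 < ((c1 * m ^ (2 * e) : ℕ) : ℤ) := by
        refine lt_of_lt_of_le h1 ?_
        exact_mod_cast hl
      have h8 : ((k : ℤ) ^ e) ^ 2 < (K0 : ℤ) ^ 2 * ((c1 * m ^ (2 * e) : ℕ) : ℤ) := by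
        refine lt_of_le_of_lt (h5.trans_eq h6) ?_
        exact mul_lt_mul_of_pos_left h7 (by positivity)
      have h9 : (k ^ e) ^ 2 < K0 ^ 2 * (c1 * m ^ (2 * e)) := by exact_mod_cast h8
      have h10 : k ^ (2 * e) < (K0 * (c1 + 1) * m) ^ (2 * e) := by
        calc k ^ (2 * e) = (k ^ e) ^ 2 := by rw [← pow_mul, mul_comm]
          _ < K0 ^ 2 * (c1 * m ^ (2 * e)) := h9
          _ ≤ K0 ^ (2 * e) * ((c1 + 1) ^ (2 * e) * m ^ (2 * e)) := by
              refine Nat.mul_le_mul (Nat.pow_le_pow_right hK0 (by omega)) ?_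
              refine Nat.mul_le_mul_right _ ?_
              calc c1 ≤ c1 + 1 := Nat.le_succ _
                _ = (c1 + 1) ^ 1 := (pow_one _).symm
                _ ≤ (c1 + 1) ^ (2 * e) := Nat.pow_le_pow_right (Nat.succ_pos _) (by omega)
          _ = (K0 * (c1 + 1) * m) ^ (2 * e) := by rw [mul_pow, mul_pow]; ring
      have h11 : k < K0 * (c1 + 1) * m := lt_of_pow_lt_pow_left₀ _ (Nat.zero_le _) h10
      refine lt_of_lt_of_le h11 (Nat.mul_le_mul_right _ ?_)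
      rw [hK]; omega
  have hfin : B.card ≤ rMax (g ^ 2) (m ^ 2 * l * H) :=
    card_le_rMax (hBA.trans hA) hfree
  calc n * l = A.card := hAc.symm
    _ ≤ (2 * E.card + 1) * B.card := hBc
    _ ≤ (2 * (C * K) + 1) * rMax (g ^ 2) (m ^ 2 * l * H) :=
        Nat.mul_le_mul (by omega) hfin

/-- Dilation. -/
theorem rMax_dilate (h : ℤ[X]) (a : ℤ) (ha : 0 < a) (N' N : ℕ) (hN : a * N' ≤ N) :
    rMax h N' ≤ rMax (C a * h) N := by
  classical
  have hne : ((Finset.Icc (1 : ℤ) N').powerset.filter (fun A => DiffFree h A)).Nonempty := by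
    refine ⟨∅, ?_⟩
    simp [DiffFree]
  obtain ⟨A, hA, hAe⟩ := exists_mem_eq_sup _ hne card
  rw [mem_filter, mem_powerset] at hA
  have e : rMax h N' = A.card := by
    unfold rMax
    rw [← hAe]
  rw [e]
  have hinj : Function.Injective (fun z : ℤ => a * z) := fun x y hxy =>
    mul_left_cancel₀ ha.ne' hxy
  rw [← card_image_of_injective A hinj]
  refine card_le_rMax ?_ ?_
  · intro z hz
    obtain ⟨x, hx, rfl⟩ := mem_image.1 hz
    have := mem_Icc.1 (hA.1 hx)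
    refine mem_Icc.2 ⟨by nlinarith only [this.1, ha], ?_⟩
    exact (mul_le_mul_of_nonneg_left this.2 ha.le).trans hN
  · rintro d ⟨hd1, hd2⟩
    obtain ⟨k, hk, hkd⟩ := hd2
    rw [Set.mem_sub] at hd1
    obtain ⟨y, hy, x, hx, hxy⟩ := hd1
    rw [coe_image, Set.mem_image] at hx hy
    obtain ⟨x, hx, rfl⟩ := hx
    obtain ⟨y, hy, rfl⟩ := hy
    rw [eval_mul, eval_C] at hkd
    have h1 : y - x = h.eval (k : ℤ) := by
      have : a * (y - x) = a * h.eval (k : ℤ) := by rw [hkd, ← hxy]; ring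
      exact mul_left_cancel₀ ha.ne' this
    have h2 : y - x ∈ ({0} : Set ℤ) :=
      hA.2 ⟨Set.mem_sub.2 ⟨y, hy, x, hx, rfl⟩, ⟨k, hk, h1.symm⟩⟩
    rw [Set.mem_singleton_iff] at h2 ⊢
    rw [← hxy]
    have h3 : a * y - a * x = a * (y - x) := by ring
    rw [h3, h2, mul_zero]

theorem one_le_rMax (h : ℤ[X]) (N : ℕ) (hN : 1 ≤ N) : 1 ≤ rMax h N := by
  have h1 : ({1} : Finset ℤ) ⊆ Finset.Icc 1 (N : ℤ) := by
    intro z hz
    rw [mem_singleton] at hz
    rw [hz, mem_Icc]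
    exact ⟨le_rfl, by exact_mod_cast hN⟩
  have h2 : DiffFree h ({1} : Finset ℤ) := by
    rintro d ⟨hd1, -⟩
    rw [Set.mem_sub] at hd1
    obtain ⟨y, hy, x, hx, hxy⟩ := hd1
    simp only [coe_singleton, Set.mem_singleton_iff] at hx hy
    rw [Set.mem_singleton_iff, ← hxy, hx, hy, sub_self]
  simpa using card_le_rMax h1 h2

end Vale.Agent.P042.LB.Sq409
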