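import Vale.Agent.P042.LB.H409.Mix

set_option autoImplicit false

/-!
P042, lower bounds: `h = a * f * g ^ m` and a squarefree modulus.
-/

namespace Vale.Agent.P042.LB.Sq409

open Polynomial Finset

/-- The construction at one scale for `h = f * g ^ m`. -/
theorem gen_nat (f g : ℤ[X]) (hg : Squarefree (g.map (Int.castRingHom ℚ)))
    (hgd : 1 ≤ g.natDegree) (m : ℕ) (hm : 2 ≤ m) (p : ℕ) (hp1 : 1 < p) (hp : Squarefree p)
    (hf : ∀ n : ℤ, IsCoprime (f.eval n) (p : ℤ)) (S : Finset ℕ) (hS : ∀ x ∈ S, x < p)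
    (hSU : ∀ x ∈ S, ∀ y ∈ S, ∀ n s : ℤ, (p : ℤ) ∣ g.eval n →
      (p : ℤ) ∣ (y : ℤ) - x - f.eval n * s ^ m → x = y) :
    ∃ C0 : ℕ, 0 < C0 ∧ ∀ N : ℕ, p ^ (f * g ^ m).natDegree ≤ N → ∃ t : ℕ,
      (p ^ t) ^ (f * g ^ m).natDegree ≤ N ∧
      S.card ^ t * N ≤ C0 * p ^ t * rMax (f * g ^ m) N := by
  have hp0 : 0 < p := by omega
  have hnu : ¬ IsUnit (p : ℤ) := by
    rw [Int.isUnit_iff_natAbs_eq, Int.natAbs_natCast]
    omega
  have hf0 : f ≠ 0 := by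
    rintro rfl
    have h1 := hf 0
    rw [eval_zero] at h1
    exact hnu (isCoprime_zero_left.1 h1)
  have hg0 : g ≠ 0 := by
    rintro rfl
    simp at hgd
  have hdeg : (f * g ^ m).natDegree = f.natDegree + m * g.natDegree := by
    rw [natDegree_mul hf0 (pow_ne_zero _ hg0), natDegree_pow]
  set k : ℕ := (f * g ^ m).natDegree with hkdef
  have hmk : m ≤ k := by
    rw [hdeg]
    calc m = m * 1 := (mul_one m).symm
      _ ≤ m * g.natDegree := Nat.mul_le_mul_left _ hgd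
      _ ≤ f.natDegree + m * g.natDegree := Nat.le_add_left _ _
  have hk : 1 ≤ k := by omega
  obtain ⟨C0, hC0, hstep⟩ := step2 (f * g ^ m) g hg hk p hp0 (p ^ k)
  refine ⟨2 * p ^ m * C0, Nat.mul_pos (Nat.mul_pos (by norm_num) (pow_pos hp0 _)) hC0, ?_⟩
  intro N hN
  have hpsq : Squarefree (p : ℤ) := Int.squarefree_natCast.2 hp
  let U : Set ℤ := {u | ∃ n s : ℤ, (p : ℤ) ∣ g.eval n ∧ ¬ (p : ℤ) ∣ s ∧ u = f.eval n * s ^ m}
  have hU : ∀ x ∈ S, ∀ y ∈ S, ∀ u ∈ U, ¬ (p : ℤ) ∣ (y : ℤ) - x - u := by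
    rintro x hx y hy u ⟨n, s, h1, h2, rfl⟩ h3
    have h4 := hSU x hx y hy n s h1 h3
    rw [h4, sub_self, zero_sub, dvd_neg] at h3
    have h5 : (p : ℤ) ∣ s ^ m := (hf n).symm.dvd_of_dvd_mul_left h3
    exact h2 ((hpsq.dvd_pow_iff_dvd (by omega)).1 h5)
  -- the scale
  have hpk : 1 < p ^ k := Nat.one_lt_pow (by omega) hp1
  obtain ⟨t, ht1, ht2⟩ : ∃ t : ℕ, (p ^ k) ^ (t + 1) ≤ N ∧ N < (p ^ k) ^ (t + 2) := by
    have hN0 : N ≠ 0 := by
      have : 0 < p ^ k := by positivity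
      omega
    have h1 : 1 ≤ Nat.log (p ^ k) N := Nat.log_pos hpk hN
    refine ⟨Nat.log (p ^ k) N - 1, ?_, ?_⟩
    · have h2 := Nat.pow_log_le_self (p ^ k) hN0
      rwa [Nat.sub_add_cancel h1]
    · have h2 := Nat.lt_pow_succ_log_self hpk N
      have e : Nat.log (p ^ k) N - 1 + 2 = Nat.log (p ^ k) N + 1 := by omega
      rw [e]
      exact h2
  refine ⟨t, ?_, ?_⟩
  · calc (p ^ t) ^ k = (p ^ k) ^ t := pow_right_comm _ _ _
      _ ≤ (p ^ k) ^ (t + 1) := Nat.pow_le_pow_right (by omega) (Nat.le_succ t)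
      _ ≤ N := ht1
  obtain ⟨X, hXc, hXlt, hXp⟩ := digits p m hp1 (by omega) S hS U hU t
  set q : ℕ := p ^ (t + 1) with hq
  set Q : ℕ := p ^ m * p ^ (m * t) with hQ
  have hQq : Q = q ^ m := by
    rw [hQ, hq, ← pow_add, ← pow_mul]
    congr 1
    ring
  have hqpos : 0 < q := by positivity
  have hQpos : 0 < Q := by positivity
  have hQN : Q ≤ N := by
    rw [hQq]
    calc q ^ m ≤ q ^ k := Nat.pow_le_pow_right hqpos hmk
      _ = (p ^ k) ^ (t + 1) := pow_right_comm _ _ _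
      _ ≤ N := ht1
  set J : ℕ := N / Q with hJ
  have hJ1 : 1 ≤ J := Nat.div_pos hQN hQpos
  have hQJ : Q * J ≤ N := Nat.mul_div_le N Q
  have hlt : N < 2 * (Q * J) := by
    have h1 := Nat.lt_mul_div_succ N hQpos
    rw [← hJ] at h1
    calc N < Q * (J + 1) := h1
      _ ≤ Q * (2 * J) := Nat.mul_le_mul_left _ (by omega)
      _ = 2 * (Q * J) := by ring
  have hpm0 : 0 < p ^ m := by positivity
  let Y : Finset ℕ := X.image (fun x => p ^ m * x)
  have hYc : Y.card = X.card := by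
    refine card_image_of_injective _ ?_
    intro a b hab
    exact Nat.eq_of_mul_eq_mul_left hpm0 hab
  have hYlt : ∀ y ∈ Y, y < Q := by
    intro y hy
    obtain ⟨x, hx, rfl⟩ := mem_image.1 hy
    exact Nat.mul_lt_mul_of_pos_left (hXlt x hx) hpm0
  have hqR : q.primeFactors ⊆ p.primeFactors := by
    intro r hr
    rw [hq, Nat.mem_primeFactors] at hr
    exact Nat.mem_primeFactors.2 ⟨hr.1, hr.1.dvd_of_dvd_pow hr.2.1, hp0.ne'⟩
  have hYp : ∀ y ∈ Y, ∀ y' ∈ Y, ∀ n : ℕ, (Q : ℤ) ∣ (y' : ℤ) - y - (f * g ^ m).eval (n : ℤ) →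
      (q : ℤ) ∣ g.eval (n : ℤ) := by
    intro y hy y' hy' n hdv
    obtain ⟨x, hx, rfl⟩ := mem_image.1 hy
    obtain ⟨x', hx', rfl⟩ := mem_image.1 hy'
    rw [eval_mul, eval_pow] at hdv
    push_cast at hdv
    by_cases hgn : g.eval (n : ℤ) = 0
    · rw [hgn]; exact dvd_zero _
    have hfin : FiniteMultiplicity (p : ℤ) (g.eval (n : ℤ)) :=
      Int.finiteMultiplicity_iff.2 ⟨by simpa using hp1.ne', hgn⟩
    obtain ⟨s, hs, hps⟩ := hfin.exists_eq_pow_mul_and_not_dvd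
    generalize multiplicity (p : ℤ) (g.eval (n : ℤ)) = i at hs
    have hpmd : (p : ℤ) ^ m ∣ f.eval (n : ℤ) * (g.eval (n : ℤ)) ^ m := by
      have h1 : (p : ℤ) ^ m ∣ ((p : ℤ) ^ m * x' - (p : ℤ) ^ m * x -
          f.eval (n : ℤ) * (g.eval (n : ℤ)) ^ m) := dvd_trans (by
            rw [hQ]; push_cast; exact dvd_mul_right _ _) hdv
      have h2 : f.eval (n : ℤ) * (g.eval (n : ℤ)) ^ m = (p : ℤ) ^ m * ((x' : ℤ) - x) -
          ((p : ℤ) ^ m * x' - (p : ℤ) ^ m * x - f.eval (n : ℤ) * (g.eval (n : ℤ)) ^ m) := by ring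
      rw [h2]
      exact dvd_sub (dvd_mul_right _ _) h1
    cases i with
    | zero =>
      exfalso
      have h1 : (p : ℤ) ∣ f.eval (n : ℤ) * (g.eval (n : ℤ)) ^ m :=
        (dvd_pow_self _ (by omega)).trans hpmd
      have h2 : (p : ℤ) ∣ (g.eval (n : ℤ)) ^ m := (hf n).symm.dvd_of_dvd_mul_left h1
      rw [hs, pow_zero, one_mul] at h2
      exact hps ((hpsq.dvd_pow_iff_dvd (by omega)).1 h2)
    | succ i =>
      have hpg : (p : ℤ) ∣ g.eval (n : ℤ) := by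
        rw [hs]
        exact (dvd_pow_self _ (Nat.succ_ne_zero i)).mul_right _
      have hu : f.eval (n : ℤ) * s ^ m ∈ U := ⟨n, s, hpg, hps, rfl⟩
      have h1 : (p : ℤ) ^ m * (p : ℤ) ^ (m * t) ∣
          (p : ℤ) ^ m * ((x' : ℤ) - x - (p : ℤ) ^ (m * i) * (f.eval (n : ℤ) * s ^ m)) := by
        have e0 : (p : ℤ) ^ m * ((x' : ℤ) - x - (p : ℤ) ^ (m * i) * (f.eval (n : ℤ) * s ^ m)) =
            (p : ℤ) ^ m * x' - (p : ℤ) ^ m * x - f.eval (n : ℤ) * (g.eval (n : ℤ)) ^ m := by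
          have e1 : (g.eval (n : ℤ)) ^ m = (p : ℤ) ^ m * (p : ℤ) ^ (m * i) * s ^ m := by
            rw [hs, mul_pow, ← pow_mul, ← pow_add]
            congr 2
            ring
          rw [e1]; ring
        rw [e0]
        have e2 : ((Q : ℕ) : ℤ) = (p : ℤ) ^ m * (p : ℤ) ^ (m * t) := by rw [hQ]; push_cast; rfl
        rw [← e2]
        exact hdv
      have h5 : (p : ℤ) ^ m ≠ 0 := pow_ne_zero _ (by exact_mod_cast hp0.ne')
      have h6 := (mul_dvd_mul_iff_left h5).1 h1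
      have h7 := hXp x hx x' hx' i _ hu h6
      rw [hq, hs]
      push_cast
      exact (pow_dvd_pow _ (Nat.succ_le_succ h7)).mul_right _
  have hcond : Q * J ≤ p ^ k * q ^ k := by
    refine hQJ.trans (ht2.le.trans (le_of_eq ?_))
    rw [hq, pow_right_comm p (t + 1) k, ← pow_succ']
  have h3 := hstep q Q J Y hqpos hqR hYlt hYp hcond
  have h4 : Y.card * J ≤ C0 * rMax (f * g ^ m) N :=
    h3.trans (Nat.mul_le_mul_left _ (rMax_mono hQJ))
  rw [hYc, hXc] at h4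
  have hpw : 0 < (p ^ (m - 1)) ^ t := by positivity
  have hQe : Q = p ^ m * (p ^ t * (p ^ (m - 1)) ^ t) := by
    rw [hQ, ← mul_pow, ← pow_succ', pow_mul]
    congr 3
    omega
  apply Nat.le_of_mul_le_mul_right _ hpw
  calc S.card ^ t * N * (p ^ (m - 1)) ^ t ≤ S.card ^ t * (2 * (Q * J)) * (p ^ (m - 1)) ^ t :=
        Nat.mul_le_mul_right _ (Nat.mul_le_mul_left _ hlt.le)
    _ = 2 * Q * ((S.card * p ^ (m - 1)) ^ t * J) := by rw [mul_pow]; ring
    _ ≤ 2 * Q * (C0 * rMax (f * g ^ m) N) := Nat.mul_le_mul_left _ h4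
    _ = 2 * p ^ m * C0 * p ^ t * rMax (f * g ^ m) N * (p ^ (m - 1)) ^ t := by rw [hQe]; ring

end Vale.Agent.P042.LB.Sq409

namespace Vale.Agent.P042.LB

open Polynomial Finset Sq409

/-- Lower bound for `h = f * g ^ m`: `g` squarefree and nonconstant, `m ≥ 2`, `b` squarefree,
all values of `f` prime to `b`, and `S` a set of residues modulo `b` no difference of which is
`f(n) * s ^ m` with `n` a root of `g` modulo `b`. -/
theorem lb_gen1 (f g : ℤ[X]) (hg : Squarefree (g.map (Int.castRingHom ℚ)))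
    (hgd : 1 ≤ g.natDegree) (m p : ℕ) (hm : 2 ≤ m) (hp2 : 2 ≤ p) (hp : Squarefree p)
    (hf : ∀ n : ℤ, IsCoprime (f.eval n) (p : ℤ)) (S : Finset ℕ) (hS : ∀ x ∈ S, x < p)
    (hS0 : S.Nonempty)
    (hSU : ∀ x ∈ S, ∀ y ∈ S, ∀ n s : ℤ, (p : ℤ) ∣ g.eval n →
      (p : ℤ) ∣ (y : ℤ) - x - f.eval n * s ^ m → x = y) :
    ∃ c : ℝ, 0 < c ∧ ∀ N : ℕ, 1 ≤ N →
      c * (N : ℝ) ^ (1 - (1 - Real.log S.card / Real.log p) / ((f * g ^ m).natDegree : ℝ)) ≤
        (rMax (f * g ^ m) N : ℝ) := by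
  obtain ⟨C0, hC0, hmain⟩ := gen_nat f g hg hgd m hm p (by omega) hp hf S hS hSU
  have hf0 : f ≠ 0 := by
    rintro rfl
    have h1 := hf 0
    rw [eval_zero] at h1
    have h2 := isCoprime_zero_left.1 h1
    rw [Int.isUnit_iff_natAbs_eq, Int.natAbs_natCast] at h2
    omega
  have hg0 : g ≠ 0 := by
    rintro rfl
    simp at hgd
  have hdeg : (f * g ^ m).natDegree = f.natDegree + m * g.natDegree := by
    rw [natDegree_mul hf0 (pow_ne_zero _ hg0), natDegree_pow]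
  set k : ℕ := (f * g ^ m).natDegree with hkdef
  have hk : 1 ≤ k := by
    rw [hdeg]
    calc 1 ≤ m * g.natDegree := Nat.mul_pos (by omega) hgd
      _ ≤ f.natDegree + m * g.natDegree := Nat.le_add_left _ _
  have hkr : (1 : ℝ) ≤ k := by exact_mod_cast hk
  have hp1 : (1 : ℝ) < p := by exact_mod_cast (by omega : 1 < p)
  have hp0 : (0 : ℝ) < p := by linarith
  have hlp : 0 < Real.log p := Real.log_pos hp1
  have hSc : 1 ≤ S.card := card_pos.2 hS0
  have hScp : S.card ≤ p := by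
    have h1 : S ⊆ range p := fun x hx => mem_range.2 (hS x hx)
    simpa using card_le_card h1
  have hsr : (1 : ℝ) ≤ S.card := by exact_mod_cast hSc
  have hs0 : (0 : ℝ) < S.card := by linarith
  have hspr : (S.card : ℝ) ≤ p := by exact_mod_cast hScp
  set σ : ℝ := Real.log S.card / Real.log p with hσ
  have hσ0 : 0 ≤ σ := div_nonneg (Real.log_nonneg hsr) hlp.le
  have hσ1 : σ ≤ 1 := by
    rw [hσ, div_le_one hlp]
    exact Real.log_le_log hs0 hspr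
  have hpσ : (p : ℝ) ^ σ = S.card := by
    rw [Real.rpow_def_of_pos hp0, hσ, mul_div_cancel₀ _ hlp.ne', Real.exp_log hs0]
  set η : ℝ := 1 - (1 - σ) / (k : ℝ) with hη
  have hη1 : η ≤ 1 := by
    rw [hη]
    have : 0 ≤ (1 - σ) / (k : ℝ) := div_nonneg (by linarith) (by linarith)
    linarith
  have hC0r : (1 : ℝ) ≤ C0 := by exact_mod_cast hC0
  have hpk0 : (0 : ℝ) < (p : ℝ) ^ k := pow_pos hp0 k
  have hpkC : (0 : ℝ) < (p : ℝ) ^ k * C0 := mul_pos hpk0 (by linarith)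
  refine ⟨((p : ℝ) ^ k * C0)⁻¹, inv_pos.2 hpkC, fun N hN => ?_⟩
  have hNr : (1 : ℝ) ≤ N := by exact_mod_cast hN
  have hN0 : (0 : ℝ) < N := by linarith
  have hpk1 : (1 : ℝ) ≤ (p : ℝ) ^ k := one_le_pow₀ hp1.le
  rw [inv_mul_le_iff₀ hpkC]
  by_cases hNp : N < p ^ k
  · have h1 : (1 : ℝ) ≤ (rMax (f * g ^ m) N : ℝ) := by
      exact_mod_cast one_le_rMax _ N hN
    have h2 : (N : ℝ) ≤ (p : ℝ) ^ k := by exact_mod_cast hNp.le
    calc (N : ℝ) ^ η ≤ (N : ℝ) ^ (1 : ℝ) := Real.rpow_le_rpow_of_exponent_le hNr hη1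
      _ = N := Real.rpow_one _
      _ ≤ (p : ℝ) ^ k := h2
      _ = (p : ℝ) ^ k * 1 := (mul_one _).symm
      _ ≤ (p : ℝ) ^ k * (C0 * (rMax (f * g ^ m) N : ℝ)) := by
          refine mul_le_mul_of_nonneg_left ?_ hpk0.le
          nlinarith
      _ = (p : ℝ) ^ k * C0 * (rMax (f * g ^ m) N : ℝ) := by ring
  · obtain ⟨t, ht, hbd⟩ := hmain N (Nat.le_of_not_lt hNp)
    generalize rMax (f * g ^ m) N = r0 at *
    have htr : ((p : ℝ) ^ t) ^ k ≤ N := by exact_mod_cast ht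
    have hbr : (S.card : ℝ) ^ t * N ≤ C0 * (p : ℝ) ^ t * r0 := by exact_mod_cast hbd
    have hpt : (0 : ℝ) < (p : ℝ) ^ t := by positivity
    -- `p ^ t = s ^ t * (p ^ t) ^ (1 - σ)` and `(p ^ t) ^ (1 - σ) ≤ N ^ ((1 - σ) / k)`
    have e1 : (p : ℝ) ^ t = (S.card : ℝ) ^ t * ((p : ℝ) ^ t) ^ (1 - σ) := by
      have e2 : (S.card : ℝ) ^ t = ((p : ℝ) ^ t) ^ σ := by
        rw [← hpσ, ← Real.rpow_natCast, ← Real.rpow_natCast, ← Real.rpow_mul hp0.le,
          ← Real.rpow_mul hp0.le, mul_comm]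
      rw [e2, ← Real.rpow_add hpt]
      simp
    have e3 : ((p : ℝ) ^ t) ^ (1 - σ) ≤ (N : ℝ) ^ ((1 - σ) / k) := by
      have e4 : ((p : ℝ) ^ t) ^ (1 - σ) = (((p : ℝ) ^ t) ^ k) ^ ((1 - σ) / k) := by
        rw [← Real.rpow_natCast ((p : ℝ) ^ t) k, ← Real.rpow_mul hpt.le]
        congr 1
        field_simp
      rw [e4]
      exact Real.rpow_le_rpow (by positivity) htr (div_nonneg (by linarith) (by linarith))
    have hst : (0 : ℝ) < (S.card : ℝ) ^ t := pow_pos hs0 t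
    have h5 : (S.card : ℝ) ^ t * N ≤ (S.card : ℝ) ^ t * (C0 * (N : ℝ) ^ ((1 - σ) / k) * r0) := by
      calc (S.card : ℝ) ^ t * N ≤ C0 * (p : ℝ) ^ t * r0 := hbr
        _ = C0 * ((S.card : ℝ) ^ t * ((p : ℝ) ^ t) ^ (1 - σ)) * r0 := by rw [← e1]
        _ ≤ C0 * ((S.card : ℝ) ^ t * (N : ℝ) ^ ((1 - σ) / k)) * r0 := by
            exact mul_le_mul_of_nonneg_right (mul_le_mul_of_nonneg_left
              (mul_le_mul_of_nonneg_left e3 hst.le) (Nat.cast_nonneg _)) (Nat.cast_nonneg _)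
        _ = (S.card : ℝ) ^ t * (C0 * (N : ℝ) ^ ((1 - σ) / k) * r0) := by ring
    have h6 : (N : ℝ) ≤ C0 * (N : ℝ) ^ ((1 - σ) / k) * r0 := le_of_mul_le_mul_left h5 hst
    have hNδ : (0 : ℝ) < (N : ℝ) ^ ((1 - σ) / k) := Real.rpow_pos_of_pos hN0 _
    have h7 : (N : ℝ) ^ η ≤ C0 * r0 := by
      rw [hη, Real.rpow_sub hN0, Real.rpow_one, div_le_iff₀ hNδ]
      calc (N : ℝ) ≤ C0 * (N : ℝ) ^ ((1 - σ) / k) * r0 := h6
        _ = C0 * r0 * (N : ℝ) ^ ((1 - σ) / k) := by ring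
    calc (N : ℝ) ^ η ≤ 1 * (C0 * r0) := by rw [one_mul]; exact h7
      _ ≤ (p : ℝ) ^ k * (C0 * r0) := mul_le_mul_of_nonneg_right hpk1 (by positivity)
      _ = (p : ℝ) ^ k * C0 * r0 := by ring

/-- Lower bound for `h = a * f * g ^ m`: `a ≥ 1`, `m ≥ 2`, `g` squarefree and nonconstant, `b ≥ 2`
squarefree, all values of `f` prime to `b`, and `S` a set of residues modulo `b` no two different
elements of which differ by `f(n) * s ^ m` modulo `b` with `n` a root of `g` modulo `b`. -/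
theorem lb_gen (f g : ℤ[X]) (hg : Squarefree (g.map (Int.castRingHom ℚ)))
    (hgd : 1 ≤ g.natDegree) (a m b : ℕ) (ha : 0 < a) (hm : 2 ≤ m) (hb2 : 2 ≤ b)
    (hb : Squarefree b) (hf : ∀ n : ℤ, IsCoprime (f.eval n) (b : ℤ)) (S : Finset ℕ)
    (hS : ∀ x ∈ S, x < b) (hS0 : S.Nonempty)
    (hSU : ∀ x ∈ S, ∀ y ∈ S, ∀ n s : ℤ, (b : ℤ) ∣ g.eval n →
      (b : ℤ) ∣ (y : ℤ) - x - f.eval n * s ^ m → x = y) :
    ∃ c : ℝ, 0 < c ∧ ∀ N : ℕ, 1 ≤ N →
      c * (N : ℝ) ^ (1 - (1 - Real.log S.card / Real.log b) / ((f * g ^ m).natDegree : ℝ)) ≤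
        (rMax (C (a : ℤ) * (f * g ^ m)) N : ℝ) := by
  obtain ⟨c, hc, hmain⟩ := lb_gen1 f g hg hgd m b hm hb2 hb hf S hS hS0 hSU
  set η : ℝ := 1 - (1 - Real.log S.card / Real.log b) / ((f * g ^ m).natDegree : ℝ) with hη
  have hb1 : (1 : ℝ) < b := by exact_mod_cast (by omega : 1 < b)
  have hlb : 0 < Real.log b := Real.log_pos hb1
  have hSc : 1 ≤ S.card := card_pos.2 hS0
  have hsr : (1 : ℝ) ≤ S.card := by exact_mod_cast hSc
  have hScp : S.card ≤ b := by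
    have h1 : S ⊆ range b := fun x hx => mem_range.2 (hS x hx)
    simpa using card_le_card h1
  have hspr : (S.card : ℝ) ≤ b := by exact_mod_cast hScp
  have hσ0 : 0 ≤ Real.log S.card / Real.log b := div_nonneg (Real.log_nonneg hsr) hlb.le
  have hσ1 : Real.log S.card / Real.log b ≤ 1 := by
    rw [div_le_one hlb]
    exact Real.log_le_log (by linarith) hspr
  have hη1 : η ≤ 1 := by
    rw [hη]
    have : 0 ≤ (1 - Real.log S.card / Real.log b) / ((f * g ^ m).natDegree : ℝ) :=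
      div_nonneg (by linarith) (Nat.cast_nonneg _)
    linarith
  have hη0 : 0 ≤ η := by
    rw [hη]
    have h1 : (1 - Real.log S.card / Real.log b) / ((f * g ^ m).natDegree : ℝ) ≤ 1 := by
      rcases Nat.eq_zero_or_pos (f * g ^ m).natDegree with h0 | h0
      · rw [h0, Nat.cast_zero, div_zero]; exact zero_le_one
      · have h2 : (1 : ℝ) ≤ ((f * g ^ m).natDegree : ℝ) := by exact_mod_cast h0
        rw [div_le_one (by linarith)]
        linarith
    linarith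
  have har : (1 : ℝ) ≤ a := by exact_mod_cast ha
  refine ⟨min c 1 / (2 * a), by positivity, fun N hN => ?_⟩
  have hNr : (1 : ℝ) ≤ N := by exact_mod_cast hN
  rw [div_mul_eq_mul_div, div_le_iff₀ (by positivity)]
  by_cases hNa : N < a
  · have h1 : (1 : ℝ) ≤ (rMax (C (a : ℤ) * (f * g ^ m)) N : ℝ) := by
      exact_mod_cast one_le_rMax _ N hN
    have h2 : (N : ℝ) ≤ a := by exact_mod_cast hNa.le
    have h3 : (N : ℝ) ^ η ≤ a := by
      calc (N : ℝ) ^ η ≤ (N : ℝ) ^ (1 : ℝ) := Real.rpow_le_rpow_of_exponent_le hNr hη1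
        _ = N := Real.rpow_one _
        _ ≤ a := h2
    calc min c 1 * (N : ℝ) ^ η ≤ 1 * a :=
          mul_le_mul (min_le_right _ _) h3 (by positivity) zero_le_one
      _ ≤ (rMax (C (a : ℤ) * (f * g ^ m)) N : ℝ) * (2 * a) := by nlinarith
  · have hNa' : a ≤ N := Nat.le_of_not_lt hNa
    set N' : ℕ := N / a with hN'
    have hN'1 : 1 ≤ N' := Nat.div_pos hNa' ha
    have h1 := hmain N' hN'1
    have h2 : rMax (f * g ^ m) N' ≤ rMax (C (a : ℤ) * (f * g ^ m)) N := by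
      refine rMax_dilate _ _ (by exact_mod_cast ha) _ _ ?_
      exact_mod_cast Nat.mul_div_le N a
    have h2r : (rMax (f * g ^ m) N' : ℝ) ≤ (rMax (C (a : ℤ) * (f * g ^ m)) N : ℝ) := by
      exact_mod_cast h2
    have h3 : N ≤ 2 * a * N' := by
      have h4 := Nat.lt_mul_div_succ N ha
      rw [← hN'] at h4
      nlinarith
    have h3r : (N : ℝ) ≤ (2 * a) * N' := by exact_mod_cast h3
    have h4 : (N : ℝ) ^ η ≤ (2 * a) * (N' : ℝ) ^ η := by
      calc (N : ℝ) ^ η ≤ ((2 * a) * N' : ℝ) ^ η := Real.rpow_le_rpow (by positivity) h3r hη0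
        _ = (2 * a : ℝ) ^ η * (N' : ℝ) ^ η := Real.mul_rpow (by positivity) (by positivity)
        _ ≤ (2 * a : ℝ) ^ (1 : ℝ) * (N' : ℝ) ^ η :=
            mul_le_mul_of_nonneg_right
              (Real.rpow_le_rpow_of_exponent_le (by linarith) hη1) (by positivity)
        _ = (2 * a) * (N' : ℝ) ^ η := by rw [Real.rpow_one]
    calc min c 1 * (N : ℝ) ^ η ≤ c * ((2 * a) * (N' : ℝ) ^ η) :=
          mul_le_mul (min_le_left _ _) h4 (by positivity) hc.le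
      _ = (c * (N' : ℝ) ^ η) * (2 * a) := by ring
      _ ≤ (rMax (C (a : ℤ) * (f * g ^ m)) N : ℝ) * (2 * a) :=
          mul_le_mul_of_nonneg_right (h1.trans h2r) (by positivity)

end Vale.Agent.P042.LB
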