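import Vale.Agent.P042.LB.H409.Block

set_option autoImplicit false

/-!
P042, lower bounds: `h = f * g ^ m` where `f` has no root modulo a prime `p`.
-/

namespace Vale.Agent.P042.LB.Sq409

open Polynomial Finset

/-- Digits in base `p ^ m`, the lowest of the `m` digits being restricted to `S`. -/
theorem digits (p m : ℕ) (hp : 1 < p) (hm : 1 ≤ m) (S : Finset ℕ) (hS : ∀ x ∈ S, x < p)
    (U : Set ℤ) (hU : ∀ x ∈ S, ∀ y ∈ S, ∀ u ∈ U, ¬ (p : ℤ) ∣ (y : ℤ) - x - u) (t : ℕ) :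
    ∃ X : Finset ℕ, X.card = (S.card * p ^ (m - 1)) ^ t ∧ (∀ x ∈ X, x < p ^ (m * t)) ∧
      ∀ x ∈ X, ∀ y ∈ X, ∀ i : ℕ, ∀ u ∈ U,
        (p : ℤ) ^ (m * t) ∣ (y : ℤ) - x - (p : ℤ) ^ (m * i) * u → t ≤ i := by
  have hp0 : 0 < p := by omega
  have hL : 0 < p ^ m := by positivity
  have hpm : p * p ^ (m - 1) = p ^ m := by
    rw [← pow_succ']
    congr 1
    omega
  -- one block of digits
  obtain ⟨D, hDc, hDlt, hDS⟩ : ∃ D : Finset ℕ, D.card = S.card * p ^ (m - 1) ∧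
      (∀ e ∈ D, e < p ^ m) ∧ ∀ e ∈ D, ∃ d ∈ S, (p : ℤ) ∣ (e : ℤ) - d := by
    refine ⟨(S ×ˢ range (p ^ (m - 1))).image (fun q => q.1 + p * q.2), ?_, ?_, ?_⟩
    · rw [card_image_of_injOn, card_product, card_range]
      rintro ⟨d, x⟩ h1 ⟨d', x'⟩ h2 heq
      simp only [coe_product, Set.mem_prod, mem_coe] at h1 h2
      simp only at heq
      have e1 : d = d' := by
        have := congrArg (· % p) heq
        simpa only [Nat.add_mul_mod_self_left, Nat.mod_eq_of_lt (hS d h1.1),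
          Nat.mod_eq_of_lt (hS d' h2.1)] using this
      subst e1
      have e2 : p * x = p * x' := Nat.add_left_cancel heq
      rw [Nat.eq_of_mul_eq_mul_left hp0 e2]
    · intro e he
      simp only [mem_image, mem_product, Prod.exists, mem_range] at he
      obtain ⟨d, x, ⟨hd, hx⟩, rfl⟩ := he
      have h1 := hS d hd
      calc d + p * x < p + p * x := by omega
        _ = p * (x + 1) := by ring
        _ ≤ p * p ^ (m - 1) := Nat.mul_le_mul_left _ hx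
        _ = p ^ m := hpm
    · intro e he
      simp only [mem_image, mem_product, Prod.exists, mem_range] at he
      obtain ⟨d, x, ⟨hd, hx⟩, rfl⟩ := he
      exact ⟨d, hd, ⟨x, by push_cast; ring⟩⟩
  induction t with
  | zero =>
    refine ⟨{0}, by simp, by simp, fun _ _ _ _ _ _ _ _ => Nat.zero_le _⟩
  | succ t ih =>
    obtain ⟨X, hXc, hXlt, hXp⟩ := ih
    refine ⟨(D ×ˢ X).image (fun q => q.1 + p ^ m * q.2), ?_, ?_, ?_⟩
    · rw [card_image_of_injOn, card_product, hDc, hXc, pow_succ, mul_comm]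
      rintro ⟨d, x⟩ h1 ⟨d', x'⟩ h2 heq
      simp only [coe_product, Set.mem_prod, mem_coe] at h1 h2
      simp only at heq
      have e1 : d = d' := by
        have := congrArg (· % p ^ m) heq
        simpa only [Nat.add_mul_mod_self_left, Nat.mod_eq_of_lt (hDlt d h1.1),
          Nat.mod_eq_of_lt (hDlt d' h2.1)] using this
      subst e1
      have e2 : p ^ m * x = p ^ m * x' := Nat.add_left_cancel heq
      rw [Nat.eq_of_mul_eq_mul_left hL e2]
    · intro z hz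
      simp only [mem_image, mem_product, Prod.exists] at hz
      obtain ⟨e, x, ⟨he, hx⟩, rfl⟩ := hz
      have h1 := hDlt e he
      have h2 := hXlt x hx
      calc e + p ^ m * x < p ^ m + p ^ m * x := by omega
        _ = p ^ m * (x + 1) := by ring
        _ ≤ p ^ m * p ^ (m * t) := Nat.mul_le_mul_left _ h2
        _ = p ^ (m * (t + 1)) := by rw [← pow_add]; ring_nf
    · intro z hz z' hz' i u hu hdv
      simp only [mem_image, mem_product, Prod.exists] at hz hz'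
      obtain ⟨e, x, ⟨he, hx⟩, rfl⟩ := hz
      obtain ⟨e', x', ⟨he', hx'⟩, rfl⟩ := hz'
      push_cast at hdv
      have hpow : (p : ℤ) ^ (m * (t + 1)) = (p : ℤ) ^ m * (p : ℤ) ^ (m * t) := by
        rw [← pow_add]; ring_nf
      have hpm' : (p : ℤ) ∣ (p : ℤ) ^ m := dvd_pow_self _ (by omega)
      cases i with
      | zero =>
        exfalso
        obtain ⟨d, hd, hed⟩ := hDS e he
        obtain ⟨d', hd', hed'⟩ := hDS e' he'
        apply hU d hd d' hd' u hu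
        have h1 : (p : ℤ) ∣ ((e' : ℤ) + (p : ℤ) ^ m * x') - ((e : ℤ) + (p : ℤ) ^ m * x) -
            (p : ℤ) ^ (m * 0) * u := by
          refine dvd_trans ?_ hdv
          rw [hpow]
          exact hpm'.mul_right _
        have e0 : (d' : ℤ) - d - u = (((e' : ℤ) + (p : ℤ) ^ m * x') - ((e : ℤ) + (p : ℤ) ^ m * x) -
            (p : ℤ) ^ (m * 0) * u) - ((e' : ℤ) - d') + ((e : ℤ) - d) -
            (p : ℤ) ^ m * ((x' : ℤ) - x) := by
          rw [mul_zero, pow_zero]; ring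
        rw [e0]
        exact dvd_sub (dvd_add (dvd_sub h1 hed') hed) (hpm'.mul_right _)
      | succ i =>
        have hpow2 : (p : ℤ) ^ (m * (i + 1)) = (p : ℤ) ^ m * (p : ℤ) ^ (m * i) := by
          rw [← pow_add]; ring_nf
        rw [hpow2] at hdv
        have h1 : (p : ℤ) ^ m ∣ (e' : ℤ) - e := by
          have h2 : (p : ℤ) ^ m ∣ ((e' : ℤ) + (p : ℤ) ^ m * x') - ((e : ℤ) + (p : ℤ) ^ m * x) -
              (p : ℤ) ^ m * (p : ℤ) ^ (m * i) * u := by
            refine dvd_trans ?_ hdv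
            rw [hpow]
            exact dvd_mul_right _ _
          have e0 : (e' : ℤ) - e = (((e' : ℤ) + (p : ℤ) ^ m * x') - ((e : ℤ) + (p : ℤ) ^ m * x) -
              (p : ℤ) ^ m * (p : ℤ) ^ (m * i) * u) +
              (p : ℤ) ^ m * ((x : ℤ) - x' + (p : ℤ) ^ (m * i) * u) := by ring
          rw [e0]
          exact dvd_add h2 (dvd_mul_right _ _)
        have h3 : (e' : ℤ) - e = 0 := by
          have hx1 : (e : ℤ) < (p : ℤ) ^ m := by exact_mod_cast hDlt e he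
          have hx2 : (e' : ℤ) < (p : ℤ) ^ m := by exact_mod_cast hDlt e' he'
          have hx3 : (0 : ℤ) ≤ e := Int.natCast_nonneg _
          have hx4 : (0 : ℤ) ≤ e' := Int.natCast_nonneg _
          apply Int.eq_zero_of_abs_lt_dvd (m := (p : ℤ) ^ m) h1
          rw [abs_lt]
          constructor <;> linarith only [hx1, hx2, hx3, hx4]
        have h4 : (p : ℤ) ^ m * (p : ℤ) ^ (m * t) ∣
            (p : ℤ) ^ m * ((x' : ℤ) - x - (p : ℤ) ^ (m * i) * u) := by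
          rw [hpow] at hdv
          have e0 : (p : ℤ) ^ m * ((x' : ℤ) - x - (p : ℤ) ^ (m * i) * u) =
              ((e' : ℤ) + (p : ℤ) ^ m * x') - ((e : ℤ) + (p : ℤ) ^ m * x) -
              (p : ℤ) ^ m * (p : ℤ) ^ (m * i) * u := by
            linear_combination -h3
          rw [e0]
          exact hdv
        have h5 : (p : ℤ) ^ m ≠ 0 := pow_ne_zero _ (by exact_mod_cast hp0.ne')
        have h6 := (mul_dvd_mul_iff_left h5).1 h4
        exact Nat.succ_le_succ (hXp x hx x' hx' i u hu h6)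

/-- Placement of a residue set with exceptional differences controlled by `g`. -/
theorem step2 (h g : ℤ[X]) (hg : Squarefree (g.map (Int.castRingHom ℚ)))
    (hk : 1 ≤ h.natDegree) (R : ℕ) (hR : 0 < R) (c1 : ℕ) :
    ∃ C0 : ℕ, 0 < C0 ∧ ∀ (q Q J : ℕ) (Y : Finset ℕ), 0 < q → q.primeFactors ⊆ R.primeFactors →
      (∀ y ∈ Y, y < Q) →
      (∀ y ∈ Y, ∀ y' ∈ Y, ∀ n : ℕ, (Q : ℤ) ∣ (y' : ℤ) - y - h.eval (n : ℤ) →
        (q : ℤ) ∣ g.eval (n : ℤ)) →
      Q * J ≤ c1 * q ^ h.natDegree → Y.card * J ≤ C0 * rMax h (Q * J) := by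
  classical
  obtain ⟨C, hC⟩ := root_card g hg R hR
  obtain ⟨K0, n0, hK0, hsm⟩ := small_card h hk
  set K : ℕ := n0 + 1 + K0 * (c1 + 1) with hK
  refine ⟨2 * (C * K) + 1, Nat.succ_pos _, ?_⟩
  intro q Q J Y hq hqR hYlt hYp hQJ
  let f : ℕ × ℕ → ℤ := fun z => 1 + z.1 + (Q : ℤ) * z.2
  have hinj : Set.InjOn f (Y ×ˢ range J : Finset (ℕ × ℕ)) := by
    rintro ⟨x, j⟩ h1 ⟨x', j'⟩ h2 he
    simp only [coe_product, Set.mem_prod, mem_coe] at h1 h2
    simp only [f] at he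
    have hn : x + Q * j = x' + Q * j' := by
      have : ((x + Q * j : ℕ) : ℤ) = ((x' + Q * j' : ℕ) : ℤ) := by
        push_cast
        linear_combination he
      exact_mod_cast this
    have e1 : x = x' := by
      have := congrArg (· % Q) hn
      simpa only [Nat.add_mul_mod_self_left, Nat.mod_eq_of_lt (hYlt x h1.1),
        Nat.mod_eq_of_lt (hYlt x' h2.1)] using this
    subst e1
    have hQ0 : 0 < Q := lt_of_le_of_lt (Nat.zero_le _) (hYlt x h1.1)
    have e2 : Q * j = Q * j' := Nat.add_left_cancel hn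
    rw [Nat.eq_of_mul_eq_mul_left hQ0 e2]
  set A : Finset ℤ := (Y ×ˢ range J).image f with hA
  have hAc : A.card = Y.card * J := by
    rw [hA, card_image_of_injOn hinj, card_product, card_range]
  have hAI : A ⊆ Finset.Icc 1 ((Q * J : ℕ) : ℤ) := by
    intro z hz
    rw [hA, mem_image] at hz
    obtain ⟨⟨x, j⟩, h1, rfl⟩ := hz
    simp only [mem_product, mem_range] at h1
    have hxl : (x : ℤ) + 1 ≤ Q := by exact_mod_cast hYlt x h1.1
    have hjl : (j : ℤ) + 1 ≤ J := by exact_mod_cast h1.2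
    have hx0 : (0 : ℤ) ≤ x := Int.natCast_nonneg _
    have hj0 : (0 : ℤ) ≤ j := Int.natCast_nonneg _
    have hQ0 : (0 : ℤ) ≤ Q := Int.natCast_nonneg _
    have e1 : (Q : ℤ) * ((j : ℤ) + 1) ≤ Q * J := mul_le_mul_of_nonneg_left hjl hQ0
    have e3 : (0 : ℤ) ≤ Q * j := mul_nonneg hQ0 hj0
    simp only [mem_Icc, f]
    push_cast
    constructor
    · linarith only [hx0, e3]
    · linarith only [hxl, e1]
  let T : Finset ℕ := (range (K * q)).filter (fun k : ℕ => (q : ℤ) ∣ g.eval (k : ℤ))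
  have hT : T.card ≤ C * K := hC q hq hqR K
  let E : Finset ℤ := (T.image (fun k : ℕ => h.eval (k : ℤ))).erase 0
  have hE : E.card ≤ C * K := (card_erase_le.trans card_image_le).trans hT
  obtain ⟨B, hBA, hBc, hBd⟩ := greedy_sub A E (notMem_erase _ _)
  have hfree : DiffFree h B := by
    rintro d ⟨hd1, hd2⟩
    obtain ⟨k, hk1, hkd⟩ := hd2
    rw [Set.mem_sub] at hd1
    obtain ⟨y, hy, x, hx, hxy⟩ := hd1
    rw [Set.mem_singleton_iff]
    by_contra hne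
    have hyx : y - x = h.eval (k : ℤ) := by rw [hkd]; exact hxy
    apply hBd x hx y hy
    have hyA := hBA hy
    have hxA := hBA hx
    have hyI := mem_Icc.1 (hAI hyA)
    have hxI := mem_Icc.1 (hAI hxA)
    rw [hA, mem_image] at hyA hxA
    obtain ⟨⟨x1, j1⟩, hx1, hfx⟩ := hxA
    obtain ⟨⟨y1, j2⟩, hy1, hfy⟩ := hyA
    simp only [mem_product, mem_range] at hx1 hy1
    have h3 : (q : ℤ) ∣ g.eval (k : ℤ) := by
      refine hYp x1 hx1.1 y1 hy1.1 k ⟨(j1 : ℤ) - j2, ?_⟩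
      simp only [f] at hfx hfy
      linear_combination hfy - hfx + hyx
    rw [hyx]
    refine mem_erase.2 ⟨by rw [hkd]; exact hne, mem_image.2 ⟨k, mem_filter.2 ⟨mem_range.2 ?_, h3⟩, rfl⟩⟩
    rcases lt_or_ge k n0 with hkn | hkn
    · calc k < n0 := hkn
        _ ≤ K := by rw [hK]; omega
        _ = K * 1 := (mul_one _).symm
        _ ≤ K * q := Nat.mul_le_mul_left _ hq
    · have h4 := hsm k hkn
      set G : ℤ := h.eval (k : ℤ) with hG
      set e : ℕ := h.natDegree with he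
      have h7 : |G| < ((c1 * q ^ e : ℕ) : ℤ) := by
        rw [← hyx]
        have h8 : |y - x| < ((Q * J : ℕ) : ℤ) := by
          rw [abs_lt]
          constructor <;> linarith only [hyI.1, hyI.2, hxI.1, hxI.2]
        exact lt_of_lt_of_le h8 (by exact_mod_cast hQJ)
      have h8 : (k : ℤ) ^ e < (K0 : ℤ) * ((c1 * q ^ e : ℕ) : ℤ) :=
        lt_of_le_of_lt h4 (mul_lt_mul_of_pos_left h7 (by exact_mod_cast hK0))
      have h9 : k ^ e < K0 * (c1 * q ^ e) := by exact_mod_cast h8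
      have h10 : k ^ e < (K0 * (c1 + 1) * q) ^ e := by
        calc k ^ e < K0 * (c1 * q ^ e) := h9
          _ ≤ K0 ^ e * ((c1 + 1) ^ e * q ^ e) := by
              refine Nat.mul_le_mul ?_ (Nat.mul_le_mul_right _ ?_)
              · exact Nat.le_self_pow (by omega) _
              · exact (Nat.le_succ _).trans (Nat.le_self_pow (by omega) _)
          _ = (K0 * (c1 + 1) * q) ^ e := by rw [mul_pow, mul_pow]; ring
      have h11 : k < K0 * (c1 + 1) * q := lt_of_pow_lt_pow_left₀ _ (Nat.zero_le _) h10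
      refine lt_of_lt_of_le h11 (Nat.mul_le_mul_right _ ?_)
      rw [hK]; omega
  have hfin : B.card ≤ rMax h (Q * J) := card_le_rMax (hBA.trans hAI) hfree
  calc Y.card * J = A.card := hAc.symm
    _ ≤ (2 * E.card + 1) * B.card := hBc
    _ ≤ (2 * (C * K) + 1) * rMax h (Q * J) := Nat.mul_le_mul (by omega) hfin

/-- The construction at one scale for `h = f * g ^ m`. -/
theorem mix_nat (f g : ℤ[X]) (hg : Squarefree (g.map (Int.castRingHom ℚ)))
    (hgd : 1 ≤ g.natDegree) (m : ℕ) (hm : 2 ≤ m) (p : ℕ) (hp : p.Prime)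
    (hf : ∀ n : ℤ, ¬ (p : ℤ) ∣ f.eval n) (S : Finset ℕ) (hS : ∀ x ∈ S, x < p)
    (hSU : ∀ x ∈ S, ∀ y ∈ S, ∀ n s : ℤ, (p : ℤ) ∣ g.eval n →
      (p : ℤ) ∣ (y : ℤ) - x - f.eval n * s ^ m → (p : ℤ) ∣ s) :
    ∃ C0 : ℕ, 0 < C0 ∧ ∀ N : ℕ, p ^ (f * g ^ m).natDegree ≤ N → ∃ t : ℕ,
      (p ^ t) ^ (f * g ^ m).natDegree ≤ N ∧
      S.card ^ t * N ≤ C0 * p ^ t * rMax (f * g ^ m) N := by
  have hp1 : 1 < p := hp.one_lt
  have hf0 : f ≠ 0 := by
    rintro rfl
    exact hf 0 (by simp)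
  have hg0 : g ≠ 0 := by
    rintro rfl
    simp at hgd
  have hdeg : (f * g ^ m).natDegree = f.natDegree + m * g.natDegree := by
    rw [natDegree_mul hf0 (pow_ne_zero _ hg0), natDegree_pow]
  set k : ℕ := (f * g ^ m).natDegree with hkdef
  have hmk : m ≤ k := by
    rw [hdeg]
    calc m = m * 1 := (mul_one m).symm
      _ ≤ m * g.natDegree := Nat.mul_le_mul_left _ hgd
      _ ≤ f.natDegree + m * g.natDegree := Nat.le_add_left _ _
  have hk : 1 ≤ k := by omega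
  obtain ⟨C0, hC0, hstep⟩ := step2 (f * g ^ m) g hg hk p hp.pos (p ^ k)
  refine ⟨2 * p ^ m * C0, Nat.mul_pos (Nat.mul_pos (by norm_num) (pow_pos hp.pos _)) hC0, ?_⟩
  intro N hN
  let U : Set ℤ := {u | ∃ n s : ℤ, (p : ℤ) ∣ g.eval n ∧ ¬ (p : ℤ) ∣ s ∧ u = f.eval n * s ^ m}
  have hU : ∀ x ∈ S, ∀ y ∈ S, ∀ u ∈ U, ¬ (p : ℤ) ∣ (y : ℤ) - x - u := by
    rintro x hx y hy u ⟨n, s, h1, h2, rfl⟩ h3
    exact h2 (hSU x hx y hy n s h1 h3)
  -- the scale
  have hpk : 1 < p ^ k := Nat.one_lt_pow (by omega) hp1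
  obtain ⟨t, ht1, ht2⟩ : ∃ t : ℕ, (p ^ k) ^ (t + 1) ≤ N ∧ N < (p ^ k) ^ (t + 2) := by
    have hN0 : N ≠ 0 := by
      have : 0 < p ^ k := by positivity
      omega
    have h1 : 1 ≤ Nat.log (p ^ k) N := Nat.log_pos hpk hN
    refine ⟨Nat.log (p ^ k) N - 1, ?_, ?_⟩
    · have h2 := Nat.pow_log_le_self (p ^ k) hN0
      rwa [Nat.sub_add_cancel h1]
    · have h2 := Nat.lt_pow_succ_log_self hpk N
      have e : Nat.log (p ^ k) N - 1 + 2 = Nat.log (p ^ k) N + 1 := by omega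
      rw [e]
      exact h2
  refine ⟨t, ?_, ?_⟩
  · calc (p ^ t) ^ k = (p ^ k) ^ t := pow_right_comm _ _ _
      _ ≤ (p ^ k) ^ (t + 1) := Nat.pow_le_pow_right (by omega) (Nat.le_succ t)
      _ ≤ N := ht1
  obtain ⟨X, hXc, hXlt, hXp⟩ := digits p m hp1 (by omega) S hS U hU t
  set q : ℕ := p ^ (t + 1) with hq
  set Q : ℕ := p ^ m * p ^ (m * t) with hQ
  have hQq : Q = q ^ m := by
    rw [hQ, hq, ← pow_add, ← pow_mul]
    congr 1
    ring
  have hqpos : 0 < q := by positivity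
  have hQpos : 0 < Q := by positivity
  have hQN : Q ≤ N := by
    rw [hQq]
    calc q ^ m ≤ q ^ k := Nat.pow_le_pow_right hqpos hmk
      _ = (p ^ k) ^ (t + 1) := pow_right_comm _ _ _
      _ ≤ N := ht1
  set J : ℕ := N / Q with hJ
  have hJ1 : 1 ≤ J := Nat.div_pos hQN hQpos
  have hQJ : Q * J ≤ N := Nat.mul_div_le N Q
  have hlt : N < 2 * (Q * J) := by
    have h1 := Nat.lt_mul_div_succ N hQpos
    rw [← hJ] at h1
    calc N < Q * (J + 1) := h1
      _ ≤ Q * (2 * J) := Nat.mul_le_mul_left _ (by omega)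
      _ = 2 * (Q * J) := by ring
  have hpm0 : 0 < p ^ m := by positivity
  let Y : Finset ℕ := X.image (fun x => p ^ m * x)
  have hYc : Y.card = X.card := by
    refine card_image_of_injective _ ?_
    intro a b hab
    exact Nat.eq_of_mul_eq_mul_left hpm0 hab
  have hYlt : ∀ y ∈ Y, y < Q := by
    intro y hy
    obtain ⟨x, hx, rfl⟩ := mem_image.1 hy
    exact Nat.mul_lt_mul_of_pos_left (hXlt x hx) hpm0
  have hqR : q.primeFactors ⊆ p.primeFactors := by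
    intro r hr
    rw [hq, Nat.mem_primeFactors] at hr
    exact Nat.mem_primeFactors.2 ⟨hr.1, hr.1.dvd_of_dvd_pow hr.2.1, hp.pos.ne'⟩
  have hpZ : Prime (p : ℤ) := Nat.prime_iff_prime_int.1 hp
  have hYp : ∀ y ∈ Y, ∀ y' ∈ Y, ∀ n : ℕ, (Q : ℤ) ∣ (y' : ℤ) - y - (f * g ^ m).eval (n : ℤ) →
      (q : ℤ) ∣ g.eval (n : ℤ) := by
    intro y hy y' hy' n hdv
    obtain ⟨x, hx, rfl⟩ := mem_image.1 hy
    obtain ⟨x', hx', rfl⟩ := mem_image.1 hy'
    rw [eval_mul, eval_pow] at hdv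
    push_cast at hdv
    by_cases hgn : g.eval (n : ℤ) = 0
    · rw [hgn]; exact dvd_zero _
    have hfin : FiniteMultiplicity (p : ℤ) (g.eval (n : ℤ)) :=
      Int.finiteMultiplicity_iff.2 ⟨by simpa using hp1.ne', hgn⟩
    obtain ⟨s, hs, hps⟩ := hfin.exists_eq_pow_mul_and_not_dvd
    generalize multiplicity (p : ℤ) (g.eval (n : ℤ)) = i at hs
    have hpmd : (p : ℤ) ^ m ∣ f.eval (n : ℤ) * (g.eval (n : ℤ)) ^ m := by
      have h1 : (p : ℤ) ^ m ∣ ((p : ℤ) ^ m * x' - (p : ℤ) ^ m * x -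
          f.eval (n : ℤ) * (g.eval (n : ℤ)) ^ m) := dvd_trans (by
            rw [hQ]; push_cast; exact dvd_mul_right _ _) hdv
      have h2 : f.eval (n : ℤ) * (g.eval (n : ℤ)) ^ m = (p : ℤ) ^ m * ((x' : ℤ) - x) -
          ((p : ℤ) ^ m * x' - (p : ℤ) ^ m * x - f.eval (n : ℤ) * (g.eval (n : ℤ)) ^ m) := by ring
      rw [h2]
      exact dvd_sub (dvd_mul_right _ _) h1
    cases i with
    | zero =>
      exfalso
      have h1 : (p : ℤ) ∣ f.eval (n : ℤ) * (g.eval (n : ℤ)) ^ m :=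
        (dvd_pow_self _ (by omega)).trans hpmd
      rcases hpZ.dvd_or_dvd h1 with h2 | h2
      · exact hf _ h2
      · rw [hs, pow_zero, one_mul] at h2
        exact hps (hpZ.dvd_of_dvd_pow h2)
    | succ i =>
      have hpg : (p : ℤ) ∣ g.eval (n : ℤ) := by
        rw [hs]
        exact (dvd_pow_self _ (Nat.succ_ne_zero i)).mul_right _
      have hu : f.eval (n : ℤ) * s ^ m ∈ U := ⟨n, s, hpg, hps, rfl⟩
      have h1 : (p : ℤ) ^ m * (p : ℤ) ^ (m * t) ∣
          (p : ℤ) ^ m * ((x' : ℤ) - x - (p : ℤ) ^ (m * i) * (f.eval (n : ℤ) * s ^ m)) := by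
        have e0 : (p : ℤ) ^ m * ((x' : ℤ) - x - (p : ℤ) ^ (m * i) * (f.eval (n : ℤ) * s ^ m)) =
            (p : ℤ) ^ m * x' - (p : ℤ) ^ m * x - f.eval (n : ℤ) * (g.eval (n : ℤ)) ^ m := by
          have e1 : (g.eval (n : ℤ)) ^ m = (p : ℤ) ^ m * (p : ℤ) ^ (m * i) * s ^ m := by
            rw [hs, mul_pow, ← pow_mul, ← pow_add]
            congr 2
            ring
          rw [e1]; ring
        rw [e0]
        have e2 : ((Q : ℕ) : ℤ) = (p : ℤ) ^ m * (p : ℤ) ^ (m * t) := by rw [hQ]; push_cast; rfl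
        rw [← e2]
        exact hdv
      have h5 : (p : ℤ) ^ m ≠ 0 := pow_ne_zero _ hpZ.ne_zero
      have h6 := (mul_dvd_mul_iff_left h5).1 h1
      have h7 := hXp x hx x' hx' i _ hu h6
      rw [hq, hs]
      push_cast
      exact (pow_dvd_pow _ (Nat.succ_le_succ h7)).mul_right _
  have hcond : Q * J ≤ p ^ k * q ^ k := by
    refine hQJ.trans (ht2.le.trans (le_of_eq ?_))
    rw [hq, pow_right_comm p (t + 1) k, ← pow_succ']
  have h3 := hstep q Q J Y hqpos hqR hYlt hYp hcond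
  have h4 : Y.card * J ≤ C0 * rMax (f * g ^ m) N :=
    h3.trans (Nat.mul_le_mul_left _ (rMax_mono hQJ))
  rw [hYc, hXc] at h4
  have hpw : 0 < (p ^ (m - 1)) ^ t := by positivity
  have hQe : Q = p ^ m * (p ^ t * (p ^ (m - 1)) ^ t) := by
    rw [hQ, ← mul_pow, ← pow_succ', pow_mul]
    congr 3
    omega
  apply Nat.le_of_mul_le_mul_right _ hpw
  calc S.card ^ t * N * (p ^ (m - 1)) ^ t ≤ S.card ^ t * (2 * (Q * J)) * (p ^ (m - 1)) ^ t :=
        Nat.mul_le_mul_right _ (Nat.mul_le_mul_left _ hlt.le)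
    _ = 2 * Q * ((S.card * p ^ (m - 1)) ^ t * J) := by rw [mul_pow]; ring
    _ ≤ 2 * Q * (C0 * rMax (f * g ^ m) N) := Nat.mul_le_mul_left _ h4
    _ = 2 * p ^ m * C0 * p ^ t * rMax (f * g ^ m) N * (p ^ (m - 1)) ^ t := by rw [hQe]; ring

end Vale.Agent.P042.LB.Sq409

namespace Vale.Agent.P042.LB

open Polynomial Finset Sq409

/-- Lower bound for `h = f * g ^ m`: `g` squarefree and nonconstant, `m ≥ 2`, `f` without root
modulo the prime `p`, and `S` a set of residues modulo `p` no difference of which is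
`f(n) * s ^ m` with `n` a root of `g` modulo `p` and `s` prime to `p`. -/
theorem lb_mix (f g : ℤ[X]) (hg : Squarefree (g.map (Int.castRingHom ℚ)))
    (hgd : 1 ≤ g.natDegree) (m : ℕ) (hm : 2 ≤ m) (p : ℕ) (hp : p.Prime)
    (hf : ∀ n : ℤ, ¬ (p : ℤ) ∣ f.eval n) (S : Finset ℕ) (hS : ∀ x ∈ S, x < p)
    (hS0 : S.Nonempty)
    (hSU : ∀ x ∈ S, ∀ y ∈ S, ∀ n s : ℤ, (p : ℤ) ∣ g.eval n →
      (p : ℤ) ∣ (y : ℤ) - x - f.eval n * s ^ m → (p : ℤ) ∣ s) :
    ∃ c : ℝ, 0 < c ∧ ∀ N : ℕ, 1 ≤ N →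
      c * (N : ℝ) ^ (1 - (1 - Real.log S.card / Real.log p) / ((f * g ^ m).natDegree : ℝ)) ≤
        (rMax (f * g ^ m) N : ℝ) := by
  obtain ⟨C0, hC0, hmain⟩ := mix_nat f g hg hgd m hm p hp hf S hS hSU
  have hf0 : f ≠ 0 := by
    rintro rfl
    exact hf 0 (by simp)
  have hg0 : g ≠ 0 := by
    rintro rfl
    simp at hgd
  have hdeg : (f * g ^ m).natDegree = f.natDegree + m * g.natDegree := by
    rw [natDegree_mul hf0 (pow_ne_zero _ hg0), natDegree_pow]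
  set k : ℕ := (f * g ^ m).natDegree with hkdef
  have hk : 1 ≤ k := by
    rw [hdeg]
    calc 1 ≤ m * g.natDegree := Nat.mul_pos (by omega) hgd
      _ ≤ f.natDegree + m * g.natDegree := Nat.le_add_left _ _
  have hkr : (1 : ℝ) ≤ k := by exact_mod_cast hk
  have hp1 : (1 : ℝ) < p := by exact_mod_cast hp.one_lt
  have hp0 : (0 : ℝ) < p := by linarith
  have hlp : 0 < Real.log p := Real.log_pos hp1
  have hSc : 1 ≤ S.card := card_pos.2 hS0
  have hScp : S.card ≤ p := by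
    have h1 : S ⊆ range p := fun x hx => mem_range.2 (hS x hx)
    simpa using card_le_card h1
  have hsr : (1 : ℝ) ≤ S.card := by exact_mod_cast hSc
  have hs0 : (0 : ℝ) < S.card := by linarith
  have hspr : (S.card : ℝ) ≤ p := by exact_mod_cast hScp
  set σ : ℝ := Real.log S.card / Real.log p with hσ
  have hσ0 : 0 ≤ σ := div_nonneg (Real.log_nonneg hsr) hlp.le
  have hσ1 : σ ≤ 1 := by
    rw [hσ, div_le_one hlp]
    exact Real.log_le_log hs0 hspr
  have hpσ : (p : ℝ) ^ σ = S.card := by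
    rw [Real.rpow_def_of_pos hp0, hσ, mul_div_cancel₀ _ hlp.ne', Real.exp_log hs0]
  set η : ℝ := 1 - (1 - σ) / (k : ℝ) with hη
  have hη1 : η ≤ 1 := by
    rw [hη]
    have : 0 ≤ (1 - σ) / (k : ℝ) := div_nonneg (by linarith) (by linarith)
    linarith
  have hC0r : (1 : ℝ) ≤ C0 := by exact_mod_cast hC0
  have hpk0 : (0 : ℝ) < (p : ℝ) ^ k := pow_pos hp0 k
  have hpkC : (0 : ℝ) < (p : ℝ) ^ k * C0 := mul_pos hpk0 (by linarith)
  refine ⟨((p : ℝ) ^ k * C0)⁻¹, inv_pos.2 hpkC, fun N hN => ?_⟩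
  have hNr : (1 : ℝ) ≤ N := by exact_mod_cast hN
  have hN0 : (0 : ℝ) < N := by linarith
  have hpk1 : (1 : ℝ) ≤ (p : ℝ) ^ k := one_le_pow₀ hp1.le
  rw [inv_mul_le_iff₀ hpkC]
  by_cases hNp : N < p ^ k
  · have h1 : (1 : ℝ) ≤ (rMax (f * g ^ m) N : ℝ) := by
      exact_mod_cast one_le_rMax _ N hN
    have h2 : (N : ℝ) ≤ (p : ℝ) ^ k := by exact_mod_cast hNp.le
    calc (N : ℝ) ^ η ≤ (N : ℝ) ^ (1 : ℝ) := Real.rpow_le_rpow_of_exponent_le hNr hη1
      _ = N := Real.rpow_one _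
      _ ≤ (p : ℝ) ^ k := h2
      _ = (p : ℝ) ^ k * 1 := (mul_one _).symm
      _ ≤ (p : ℝ) ^ k * (C0 * (rMax (f * g ^ m) N : ℝ)) := by
          refine mul_le_mul_of_nonneg_left ?_ hpk0.le
          nlinarith
      _ = (p : ℝ) ^ k * C0 * (rMax (f * g ^ m) N : ℝ) := by ring
  · obtain ⟨t, ht, hbd⟩ := hmain N (Nat.le_of_not_lt hNp)
    generalize rMax (f * g ^ m) N = r0 at *
    have htr : ((p : ℝ) ^ t) ^ k ≤ N := by exact_mod_cast ht
    have hbr : (S.card : ℝ) ^ t * N ≤ C0 * (p : ℝ) ^ t * r0 := by exact_mod_cast hbd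
    have hpt : (0 : ℝ) < (p : ℝ) ^ t := by positivity
    -- `p ^ t = s ^ t * (p ^ t) ^ (1 - σ)` and `(p ^ t) ^ (1 - σ) ≤ N ^ ((1 - σ) / k)`
    have e1 : (p : ℝ) ^ t = (S.card : ℝ) ^ t * ((p : ℝ) ^ t) ^ (1 - σ) := by
      have e2 : (S.card : ℝ) ^ t = ((p : ℝ) ^ t) ^ σ := by
        rw [← hpσ, ← Real.rpow_natCast, ← Real.rpow_natCast, ← Real.rpow_mul hp0.le,
          ← Real.rpow_mul hp0.le, mul_comm]
      rw [e2, ← Real.rpow_add hpt]
      simp
    have e3 : ((p : ℝ) ^ t) ^ (1 - σ) ≤ (N : ℝ) ^ ((1 - σ) / k) := by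
      have e4 : ((p : ℝ) ^ t) ^ (1 - σ) = (((p : ℝ) ^ t) ^ k) ^ ((1 - σ) / k) := by
        rw [← Real.rpow_natCast ((p : ℝ) ^ t) k, ← Real.rpow_mul hpt.le]
        congr 1
        field_simp
      rw [e4]
      exact Real.rpow_le_rpow (by positivity) htr (div_nonneg (by linarith) (by linarith))
    have hst : (0 : ℝ) < (S.card : ℝ) ^ t := pow_pos hs0 t
    have h5 : (S.card : ℝ) ^ t * N ≤ (S.card : ℝ) ^ t * (C0 * (N : ℝ) ^ ((1 - σ) / k) * r0) := by
      calc (S.card : ℝ) ^ t * N ≤ C0 * (p : ℝ) ^ t * r0 := hbr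
        _ = C0 * ((S.card : ℝ) ^ t * ((p : ℝ) ^ t) ^ (1 - σ)) * r0 := by rw [← e1]
        _ ≤ C0 * ((S.card : ℝ) ^ t * (N : ℝ) ^ ((1 - σ) / k)) * r0 := by
            exact mul_le_mul_of_nonneg_right (mul_le_mul_of_nonneg_left
              (mul_le_mul_of_nonneg_left e3 hst.le) (Nat.cast_nonneg _)) (Nat.cast_nonneg _)
        _ = (S.card : ℝ) ^ t * (C0 * (N : ℝ) ^ ((1 - σ) / k) * r0) := by ring
    have h6 : (N : ℝ) ≤ C0 * (N : ℝ) ^ ((1 - σ) / k) * r0 := le_of_mul_le_mul_left h5 hst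
    have hNδ : (0 : ℝ) < (N : ℝ) ^ ((1 - σ) / k) := Real.rpow_pos_of_pos hN0 _
    have h7 : (N : ℝ) ^ η ≤ C0 * r0 := by
      rw [hη, Real.rpow_sub hN0, Real.rpow_one, div_le_iff₀ hNδ]
      calc (N : ℝ) ≤ C0 * (N : ℝ) ^ ((1 - σ) / k) * r0 := h6
        _ = C0 * r0 * (N : ℝ) ^ ((1 - σ) / k) := by ring
    calc (N : ℝ) ^ η ≤ 1 * (C0 * r0) := by rw [one_mul]; exact h7
      _ ≤ (p : ℝ) ^ k * (C0 * r0) := mul_le_mul_of_nonneg_right hpk1 (by positivity)
      _ = (p : ℝ) ^ k * C0 * r0 := by ring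

end Vale.Agent.P042.LB
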