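import Vale.Agent.P042.LB.H409.Gen

set_option autoImplicit false

/-!
P042, lower bounds: `h = a * g ^ m` and a prime `p` with `2 * m ∣ p - 1`, with `m` residues.
-/

namespace Vale.Agent.P042.LB.Sq409

open Polynomial Finset

/-- A progression of `m` residues no difference of which is an `m`-th power. -/
theorem exists_ap_classes (m p : ℕ) [Fact p.Prime] (hm : 2 ≤ m) (hp : 2 * m ∣ p - 1) :
    ∃ d : ZMod p, d ≠ 0 ∧ ∀ j : ℕ, 1 ≤ j → j < m →
      ∀ s : ZMod p, s ^ m ≠ j * d ∧ -(s ^ m) ≠ j * d := by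
  classical
  have hp1 : 0 < p - 1 := by
    have := (Fact.out : p.Prime).two_le
    omega
  obtain ⟨ζ, hζ⟩ := IsCyclic.exists_generator (α := (ZMod p)ˣ)
  have hord : orderOf ζ = p - 1 := by
    rw [orderOf_eq_card_of_forall_mem_zpowers hζ, Nat.card_eq_fintype_card, ZMod.card_units]
  obtain ⟨t, ht⟩ := hp
  have ht0 : 0 < t := by
    rcases Nat.eq_zero_or_pos t with h | h
    · rw [h, mul_zero] at ht; omega
    · exact h
  have hmp : m < p := by
    have h1 : m * 1 ≤ m * (2 * t) := Nat.mul_le_mul_left _ (by omega)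
    have h2 : m * (2 * t) = 2 * m * t := by ring
    rw [h2, ← ht] at h1
    omega
  have hexp : ∀ u : (ZMod p)ˣ, ∃ a : ℕ, ζ ^ a = u := by
    intro u
    have h1 := hζ u
    rw [← mem_powers_iff_mem_zpowers] at h1
    exact h1
  -- exponents of `1, ..., m - 1`
  have hex : ∀ j : ℕ, ∃ a : ℕ, 1 ≤ j → j < m → ((ζ ^ a : (ZMod p)ˣ) : ZMod p) = (j : ZMod p) := by
    intro j
    by_cases hj : 1 ≤ j ∧ j < m
    · have hj0 : (j : ZMod p) ≠ 0 := by
        intro h
        rw [ZMod.natCast_eq_zero_iff] at h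
        have := Nat.le_of_dvd (by omega) h
        omega
      obtain ⟨a, ha⟩ := hexp (Units.mk0 (j : ZMod p) hj0)
      exact ⟨a, fun _ _ => by rw [ha, Units.val_mk0]⟩
    · exact ⟨0, fun h1 h2 => absurd ⟨h1, h2⟩ hj⟩
  choose a ha using hex
  -- an exponent avoiding all classes
  obtain ⟨e, he⟩ : ∃ e : ℕ, ∀ j : ℕ, 1 ≤ j → j < m → ¬ m ∣ a j + e := by
    by_contra hcon
    push Not at hcon
    choose f hf1 hf2 hf3 using hcon
    obtain ⟨x, hx, y, hy, hxy, hfxy⟩ := exists_ne_map_eq_of_card_lt_of_maps_to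
      (s := range m) (t := Finset.Ico 1 m) (f := f)
      (by rw [card_range, Nat.card_Ico]; omega)
      (fun e _ => mem_coe.2 (mem_Ico.2 ⟨hf1 e, hf2 e⟩))
    apply hxy
    have h1 := hf3 x
    have h2 := hf3 y
    rw [← hfxy] at h2
    have h3 : x ≡ y [MOD m] := by
      have h4 : a (f x) + x ≡ a (f x) + y [MOD m] :=
        ((Nat.modEq_zero_iff_dvd).2 h1).trans ((Nat.modEq_zero_iff_dvd).2 h2).symm
      exact Nat.ModEq.add_left_cancel' _ h4
    exact Nat.ModEq.eq_of_lt_of_lt h3 (mem_range.1 hx) (mem_range.1 hy)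
  have hnp : ∀ j : ℕ, 1 ≤ j → j < m → ∀ s : ZMod p,
      s ^ m ≠ (j : ZMod p) * ((ζ ^ e : (ZMod p)ˣ) : ZMod p) := by
    intro j hj1 hjm s hs
    have hs0 : s ≠ 0 := by
      rintro rfl
      rw [zero_pow (by omega), ← ha j hj1 hjm, ← Units.val_mul] at hs
      exact (Units.ne_zero _) hs.symm
    obtain ⟨b, hb⟩ := hexp (Units.mk0 s hs0)
    have h1 : ζ ^ (b * m) = ζ ^ (a j + e) := by
      ext
      rw [pow_mul, hb, Units.val_pow_eq_pow_val, Units.val_mk0, hs, pow_add, Units.val_mul,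
        ha j hj1 hjm]
    rw [pow_eq_pow_iff_modEq, hord] at h1
    have h2 : m ∣ p - 1 := ⟨2 * t, by rw [ht]; ring⟩
    have h3 : b * m ≡ a j + e [MOD m] := h1.of_dvd h2
    apply he j hj1 hjm
    exact (Nat.modEq_zero_iff_dvd).1 (h3.symm.trans ((Nat.modEq_zero_iff_dvd).2 (dvd_mul_left m b)))
  -- `-1` is an m-th power
  have hneg : ∃ z : ZMod p, z ^ m = -1 := by
    refine ⟨((ζ ^ t : (ZMod p)ˣ) : ZMod p), ?_⟩
    have h1 : (((ζ ^ t : (ZMod p)ˣ) : ZMod p) ^ m) ^ 2 = 1 := by
      have h2 : (((ζ ^ t) ^ m) ^ 2 : (ZMod p)ˣ) = 1 := by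
        rw [← pow_mul, ← pow_mul]
        have h3 : t * (m * 2) = p - 1 := by rw [ht]; ring
        rw [h3]
        exact ZMod.units_pow_card_sub_one_eq_one p _
      have h4 := congrArg (fun u : (ZMod p)ˣ => (u : ZMod p)) h2
      simpa using h4
    have h1' : (((ζ ^ t : (ZMod p)ˣ) : ZMod p) ^ m - 1) * (((ζ ^ t : (ZMod p)ˣ) : ZMod p) ^ m + 1) = 0 := by
      linear_combination h1
    rcases mul_eq_zero.1 h1' with h | h
    · exfalso
      have h2 : (ζ ^ (t * m) : (ZMod p)ˣ) = 1 := by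
        ext
        rw [pow_mul]
        have h := sub_eq_zero.1 h
        simpa using h
      have h3 := orderOf_dvd_of_pow_eq_one h2
      rw [hord] at h3
      have h4 := Nat.le_of_dvd (by positivity) h3
      rw [ht] at h4
      nlinarith [Nat.mul_pos ht0 (show 0 < m by omega)]
    · linear_combination h
  obtain ⟨z, hz⟩ := hneg
  refine ⟨((ζ ^ e : (ZMod p)ˣ) : ZMod p), Units.ne_zero _, fun j hj1 hjm s =>
    ⟨hnp j hj1 hjm s, fun hs => hnp j hj1 hjm (z * s) ?_⟩⟩
  rw [mul_pow, hz, neg_one_mul, hs]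

end Vale.Agent.P042.LB.Sq409

namespace Vale.Agent.P042.LB

open Polynomial Finset Sq409

/-- **`h = a g^m`, `m ≥ 2`** (Ruzsa's exponent for `g = x`): exponent
`1 - 1/k + log m / (k log p)` for every prime `p ≡ 1 mod 2 m`. -/
theorem lb_ruzsa (g : ℤ[X]) (hg : Squarefree (g.map (Int.castRingHom ℚ)))
    (hgd : 1 ≤ g.natDegree) (a m p : ℕ) (ha : 0 < a) (hm : 2 ≤ m) (hp : p.Prime)
    (hpm : 2 * m ∣ p - 1) :
    ∃ c : ℝ, 0 < c ∧ ∀ N : ℕ, 1 ≤ N →
      c * (N : ℝ) ^ (1 - (1 - Real.log m / Real.log p) / ((m * g.natDegree : ℕ) : ℝ)) ≤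
        (rMax (C (a : ℤ) * g ^ m) N : ℝ) := by
  classical
  have : Fact p.Prime := ⟨hp⟩
  obtain ⟨d, hd0, hd⟩ := exists_ap_classes m p hm hpm
  have hp1 : 0 < p - 1 := by have := hp.two_le; omega
  have hmp : m < p := by
    obtain ⟨t, ht⟩ := hpm
    have ht0 : 0 < t := by
      rcases Nat.eq_zero_or_pos t with h | h
      · rw [h, mul_zero] at ht; omega
      · exact h
    have h1 : m * 1 ≤ m * (2 * t) := Nat.mul_le_mul_left _ (by omega)
    have h2 : m * (2 * t) = 2 * m * t := by ring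
    rw [h2, ← ht] at h1
    omega
  set S : Finset ℕ := (range m).image (fun j : ℕ => ((j : ZMod p) * d).val) with hS
  have hval : ∀ j : ℕ, ((((j : ZMod p) * d).val : ℕ) : ZMod p) = (j : ZMod p) * d := fun j =>
    ZMod.natCast_zmod_val _
  have hinj : Set.InjOn (fun j : ℕ => ((j : ZMod p) * d).val) (range m : Finset ℕ) := by
    intro i hi j hj hij
    have hi' : i < m := by simpa using hi
    have hj' : j < m := by simpa using hj
    have h1 : (i : ZMod p) * d = (j : ZMod p) * d := ZMod.val_injective p hij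
    have h2 : (i : ZMod p) = (j : ZMod p) := mul_right_cancel₀ hd0 h1
    have h3 : i ≡ j [MOD p] := (ZMod.natCast_eq_natCast_iff _ _ _).1 h2
    exact Nat.ModEq.eq_of_lt_of_lt h3 (by omega) (by omega)
  have hScard : S.card = m := by rw [hS, card_image_of_injOn hinj, card_range]
  have hdeg : ((1 : ℤ[X]) * g ^ m).natDegree = m * g.natDegree := by
    rw [one_mul, natDegree_pow]
  have hmain := lb_gen 1 g hg hgd a m p ha hm hp.two_le
    (Nat.squarefree_iff_prime_squarefree.2 (fun q hq hqq => by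
      have h1 : q ∣ p := (dvd_mul_right q q).trans hqq
      have h2 : q = p := (Nat.prime_dvd_prime_iff_eq hq hp).1 h1
      rw [h2] at hqq
      have h3 := Nat.le_of_dvd hp.pos hqq
      have := hp.two_le
      nlinarith))
    (fun n => by rw [eval_one]; exact isCoprime_one_left) S
    (fun x hx => by
      rw [hS, mem_image] at hx
      obtain ⟨j, -, rfl⟩ := hx
      exact ZMod.val_lt _)
    (by rw [← card_pos, hScard]; omega)
    (fun x hx y hy n s _ hdv => by
      rw [hS, mem_image] at hx hy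
      obtain ⟨i, hi, rfl⟩ := hx
      obtain ⟨j, hj, rfl⟩ := hy
      rw [mem_range] at hi hj
      rw [eval_one, one_mul] at hdv
      have h1 : (j : ZMod p) * d - (i : ZMod p) * d - (s : ZMod p) ^ m = 0 := by
        have h2 := (ZMod.intCast_zmod_eq_zero_iff_dvd _ p).2 hdv
        push_cast at h2
        rwa [hval, hval] at h2
      rcases lt_trichotomy i j with h | h | h
      · exfalso
        apply (hd (j - i) (by omega) (by omega) (s : ZMod p)).1
        rw [Nat.cast_sub h.le]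
        linear_combination -h1
      · rw [h]
      · exfalso
        apply (hd (i - j) (by omega) (by omega) (s : ZMod p)).2
        rw [Nat.cast_sub h.le]
        linear_combination h1)
  rw [hScard, hdeg, one_mul] at hmain
  exact hmain

end Vale.Agent.P042.LB
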