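import Vale.Agent.P042.LB.H409.Block

set_option autoImplicit false

/-!
P042, lower bounds: `h = a * g ^ 2` with `g` squarefree.
-/

namespace Vale.Agent.P042.LB.Sq409

open Polynomial Finset

/-- The root of the modulus of the final family of B1. -/
def m0 : ℕ := 4 ^ 71 * (103 ^ 53 * (71 ^ 58 * (59 ^ 58 * (43 ^ 65 * (31 ^ 65 * (23 ^ 79 *
  (19 ^ 79 * (11 ^ 92 * (7 ^ 116 * 3 ^ 184)))))))))

/-- The size of the final family of B1. -/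
def n0 : ℕ := 10 ^ 71 * ((103 * 11) ^ 53 * ((71 * 9) ^ 58 * ((59 * 9) ^ 58 * ((43 * 7) ^ 65 *
  ((31 * 7) ^ 65 * ((23 * 5) ^ 79 * ((19 * 5) ^ 79 * ((11 * 4) ^ 92 * ((7 * 3) ^ 116 *
  ((3 * 2) ^ 184))))))))))

theorem m0_pos : 0 < m0 := by unfold m0; positivity

theorem n0_pos : 0 < n0 := by unfold n0; positivity

theorem fam_main (t : ℕ) : Sys ((m0 ^ t) ^ 2) (n0 ^ t) (11 * (2 ^ 184) ^ t) := by
  obtain ⟨H, hH, hS⟩ := fam10.2 t
  have e1 : ((4 ^ 2) ^ 71 * ((103 ^ 2) ^ 53 * ((71 ^ 2) ^ 58 * ((59 ^ 2) ^ 58 * ((43 ^ 2) ^ 65 *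
      ((31 ^ 2) ^ 65 * ((23 ^ 2) ^ 79 * ((19 ^ 2) ^ 79 * ((11 ^ 2) ^ 92 * ((7 ^ 2) ^ 116 *
      ((3 ^ 2) ^ 184)))))))))) : ℕ) = m0 ^ 2 := by
    unfold m0
    decide +kernel
  rw [e1] at hS
  have e2 : (m0 ^ 2) ^ t = (m0 ^ t) ^ 2 := by rw [← pow_mul, ← pow_mul, mul_comm]
  rw [e2] at hS
  exact sys_mono hS hH

theorem num1 : 2 ^ 349749 ≤ (m0 ^ 2) ^ 50 := by unfold m0; decide +kernel

theorem num2 : (m0 ^ 2 * 2 ^ 184) ^ 50 ≤ 2 ^ 87646 * n0 ^ 50 := by unfold m0 n0; decide +kernel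

theorem main_nat (g : ℤ[X]) (hg : Squarefree (g.map (Int.castRingHom ℚ)))
    (hd : 1 ≤ g.natDegree) :
    ∃ C0 : ℕ, 0 < C0 ∧ ∀ N : ℕ, 11 ≤ N → ∃ t : ℕ,
      (2 ^ 184 * (m0 ^ 2) ^ g.natDegree) ^ t ≤ N ∧
      n0 ^ t * N ≤ C0 * (m0 ^ 2 * 2 ^ 184) ^ t * rMax (g ^ 2) N := by
  obtain ⟨C1, hC1, hstep⟩ := step g hg hd m0 m0_pos (2 ^ 184 * (m0 ^ 2) ^ g.natDegree)
  refine ⟨22 * C1, by omega, ?_⟩
  intro N hN
  have hfam := fam_main
  have hm := m0_pos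
  set e : ℕ := g.natDegree with he
  generalize hr0 : rMax (g ^ 2) N = r0
  have hmono : ∀ N' ≤ N, rMax (g ^ 2) N' ≤ r0 := fun N' h => hr0 ▸ rMax_mono h
  generalize m0 = M at *
  generalize n0 = D at *
  generalize hP : (2 : ℕ) ^ 184 = P at *
  have hP2 : 2 ≤ P := by
    rw [← hP]
    calc 2 = 2 ^ 1 := (pow_one 2).symm
      _ ≤ 2 ^ 184 := Nat.pow_le_pow_right (by norm_num) (by norm_num)
  have hB1 : 1 < P * (M ^ 2) ^ e := by
    calc 1 < P := hP2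
      _ = P * 1 := (mul_one P).symm
      _ ≤ P * (M ^ 2) ^ e := Nat.mul_le_mul_left _ (Nat.one_le_iff_ne_zero.2 (by positivity))
  have hex : ∃ t : ℕ, 11 * (P * (M ^ 2) ^ e) ^ t ≤ N ∧ N < 11 * (P * (M ^ 2) ^ e) ^ (t + 1) := by
    refine ⟨Nat.log (P * (M ^ 2) ^ e) (N / 11), ?_, ?_⟩
    · have h1 : N / 11 ≠ 0 := (Nat.div_pos hN (by norm_num)).ne'
      have h2 := Nat.pow_log_le_self (P * (M ^ 2) ^ e) h1
      calc 11 * (P * (M ^ 2) ^ e) ^ Nat.log (P * (M ^ 2) ^ e) (N / 11) ≤ 11 * (N / 11) :=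
            Nat.mul_le_mul_left _ h2
        _ ≤ N := Nat.mul_div_le N 11
    · have h2 := Nat.lt_pow_succ_log_self hB1 (N / 11)
      calc N < 11 * (N / 11 + 1) := by omega
        _ ≤ 11 * (P * (M ^ 2) ^ e) ^ (Nat.log (P * (M ^ 2) ^ e) (N / 11) + 1) :=
            Nat.mul_le_mul_left _ h2
  obtain ⟨t, ht1, ht2⟩ := hex
  refine ⟨t, le_trans (Nat.le_mul_of_pos_left _ (by norm_num)) ht1, ?_⟩
  set m : ℕ := M ^ t with hmdef
  have hmpos : 0 < m := by positivity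
  set H : ℕ := 11 * P ^ t with hH
  have hHpos : 0 < H := by
    have : 0 < P := by omega
    positivity
  have hmH : m ^ 2 * H = 11 * (P * M ^ 2) ^ t := by
    rw [hmdef, hH, mul_pow, ← pow_mul, ← pow_mul, mul_comm t 2]; ring
  have hmH' : m ^ 2 * H ≤ N := by
    rw [hmH]
    refine le_trans (Nat.mul_le_mul_left _ (Nat.pow_le_pow_left (Nat.mul_le_mul_left _ ?_) t)) ht1
    calc M ^ 2 = (M ^ 2) ^ 1 := (pow_one _).symm
      _ ≤ (M ^ 2) ^ e := Nat.pow_le_pow_right (by positivity) hd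
  have hmHpos : 0 < m ^ 2 * H := by positivity
  set l : ℕ := N / (m ^ 2 * H) with hl
  have hl1 : 1 ≤ l := Nat.div_pos hmH' hmHpos
  have hle : m ^ 2 * l * H ≤ N := by
    calc m ^ 2 * l * H = (m ^ 2 * H) * (N / (m ^ 2 * H)) := by rw [← hl]; ring
      _ ≤ N := Nat.mul_div_le _ _
  have hlt : N < 2 * l * (m ^ 2 * H) := by
    have h1 := Nat.lt_mul_div_succ N hmHpos
    rw [← hl] at h1
    calc N < m ^ 2 * H * (l + 1) := h1
      _ ≤ m ^ 2 * H * (2 * l) := Nat.mul_le_mul_left _ (by omega)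
      _ = 2 * l * (m ^ 2 * H) := by ring
  have hcond : m ^ 2 * l ≤ P * (M ^ 2) ^ e * m ^ (2 * e) := by
    have h1 : m ^ 2 * l * H < (P * (M ^ 2) ^ e * m ^ (2 * e)) * H := by
      refine lt_of_le_of_lt hle (lt_of_lt_of_eq ht2 ?_)
      rw [hmdef, hH]
      have e1 : (M ^ t) ^ (2 * e) = ((M ^ 2) ^ e) ^ t := by
        rw [← pow_mul, ← pow_mul, ← pow_mul]; ring
      rw [e1, pow_succ, mul_pow]
      ring
    exact (Nat.lt_of_mul_lt_mul_right h1).le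
  have hprime : m.primeFactors ⊆ M.primeFactors := by
    intro p hp
    rw [hmdef, Nat.mem_primeFactors] at hp
    exact Nat.mem_primeFactors.2 ⟨hp.1, hp.1.dvd_of_dvd_pow hp.2.1, hm.ne'⟩
  have h3 := hstep m (D ^ t) H l hmpos hprime (hfam t) hcond
  have h4 : D ^ t * l ≤ C1 * r0 := h3.trans (Nat.mul_le_mul_left _ (hmono _ hle))
  calc D ^ t * N ≤ D ^ t * (2 * l * (m ^ 2 * H)) := Nat.mul_le_mul_left _ hlt.le
    _ = 2 * (m ^ 2 * H) * (D ^ t * l) := by ring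
    _ ≤ 2 * (m ^ 2 * H) * (C1 * r0) := Nat.mul_le_mul_left _ h4
    _ = 22 * C1 * (M ^ 2 * P) ^ t * r0 := by rw [hmH, mul_comm P (M ^ 2)]; ring

/-- The bound with an explicit rational exponent, for `g ^ 2`. -/
theorem main_real (g : ℤ[X]) (hg : Squarefree (g.map (Int.castRingHom ℚ)))
    (hd : 1 ≤ g.natDegree) :
    ∃ C0 : ℕ, 0 < C0 ∧ ∀ N : ℕ, 11 ≤ N →
      (N : ℝ) ^ (1 - (87646 : ℝ) / ((9200 + 349749 * g.natDegree : ℕ) : ℝ)) ≤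
        (C0 : ℝ) * (rMax (g ^ 2) N : ℝ) := by
  obtain ⟨C0, hC0, hmain⟩ := main_nat g hg hd
  refine ⟨C0, hC0, fun N hN => ?_⟩
  obtain ⟨t, ht, hbd⟩ := hmain N hN
  have hn1 := num1
  have hn2 := num2
  have hm := m0_pos
  have hn := n0_pos
  set e : ℕ := g.natDegree with he
  generalize rMax (g ^ 2) N = r0 at *
  generalize m0 = M at *
  generalize n0 = D at *
  have hNpos : (0 : ℝ) < N := by exact_mod_cast (by omega : 0 < N)
  have hDpos : (0 : ℝ) < (D : ℝ) ^ t := by positivity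
  set w : ℕ := 9200 + 349749 * e with hw
  have hwpos : (0 : ℝ) < (w : ℝ) := by exact_mod_cast (by omega : 0 < w)
  -- the modulus
  have h1 : (2 ^ w) ^ t ≤ N ^ 50 := by
    calc (2 ^ w) ^ t = ((2 ^ 9200) * (2 ^ 349749) ^ e) ^ t := by
          rw [hw, pow_add, pow_mul]
      _ ≤ ((2 ^ 184) ^ 50 * ((M ^ 2) ^ 50) ^ e) ^ t := by
          refine Nat.pow_le_pow_left (Nat.mul_le_mul (le_of_eq ?_) (Nat.pow_le_pow_left hn1 e)) t
          rw [← pow_mul]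
      _ = ((2 ^ 184 * (M ^ 2) ^ e) ^ t) ^ 50 := by
          rw [pow_right_comm _ t 50, mul_pow (2 ^ 184) _ 50, pow_right_comm (M ^ 2) e 50]
      _ ≤ N ^ 50 := Nat.pow_le_pow_left ht 50
  -- the loss
  have h2 : ((M ^ 2 * 2 ^ 184) ^ t) ^ 50 ≤ (2 ^ 87646) ^ t * (D ^ t) ^ 50 := by
    calc ((M ^ 2 * 2 ^ 184) ^ t) ^ 50 = ((M ^ 2 * 2 ^ 184) ^ 50) ^ t := pow_right_comm _ _ _
      _ ≤ (2 ^ 87646 * D ^ 50) ^ t := Nat.pow_le_pow_left hn2 t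
      _ = (2 ^ 87646) ^ t * (D ^ t) ^ 50 := by
          rw [mul_pow, pow_right_comm D 50 t]
  set δ : ℝ := (87646 : ℝ) / (w : ℝ) with hδ
  have hδ0 : 0 ≤ δ := by positivity
  have h1r : (((2 : ℝ) ^ w) ^ t) ≤ (N : ℝ) ^ 50 := by exact_mod_cast h1
  have h3 : ((2 : ℝ) ^ 87646) ^ t ≤ ((N : ℝ) ^ δ) ^ 50 := by
    have e1 : (((2 : ℝ) ^ w) ^ t) ^ δ = ((2 : ℝ) ^ 87646) ^ t := by
      rw [← pow_mul, ← pow_mul, ← Real.rpow_natCast, ← Real.rpow_natCast,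
        ← Real.rpow_mul (by norm_num)]
      congr 1
      rw [hδ]
      push_cast
      field_simp
    have e2 : ((N : ℝ) ^ 50) ^ δ = ((N : ℝ) ^ δ) ^ 50 := by
      rw [← Real.rpow_natCast, ← Real.rpow_natCast, ← Real.rpow_mul hNpos.le,
        ← Real.rpow_mul hNpos.le, mul_comm]
    rw [← e1, ← e2]
    exact Real.rpow_le_rpow (by positivity) h1r hδ0
  have h4 : ((M : ℝ) ^ 2 * 2 ^ 184) ^ t ≤ (N : ℝ) ^ δ * (D : ℝ) ^ t := by
    have h5 : ((((M : ℝ) ^ 2 * 2 ^ 184) ^ t) ^ 50) ≤ (((N : ℝ) ^ δ) * (D : ℝ) ^ t) ^ 50 := by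
      have h2r : ((((M : ℝ) ^ 2 * 2 ^ 184) ^ t) ^ 50) ≤ ((2 : ℝ) ^ 87646) ^ t * ((D : ℝ) ^ t) ^ 50 := by
        obtain ⟨Z, hZ⟩ : ∃ Z : ℕ, Z = 2 ^ 87646 := ⟨_, rfl⟩
        have hZr : (Z : ℝ) = (2 : ℝ) ^ 87646 := by rw [hZ, Nat.cast_pow, Nat.cast_ofNat]
        rw [← hZ] at h2
        rw [← hZr]
        exact_mod_cast h2
      rw [mul_pow ((N : ℝ) ^ δ)]
      exact h2r.trans (mul_le_mul_of_nonneg_right h3 (by positivity))
    exact le_of_pow_le_pow_left₀ (by norm_num) (by positivity) h5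
  have hbr : (D : ℝ) ^ t * N ≤ (C0 : ℝ) * (((M : ℝ) ^ 2 * 2 ^ 184) ^ t) * r0 := by
    exact_mod_cast hbd
  have h6 : (D : ℝ) ^ t * N ≤ (D : ℝ) ^ t * ((C0 : ℝ) * (N : ℝ) ^ δ * r0) := by
    calc (D : ℝ) ^ t * N ≤ (C0 : ℝ) * (((M : ℝ) ^ 2 * 2 ^ 184) ^ t) * r0 := hbr
      _ ≤ (C0 : ℝ) * ((N : ℝ) ^ δ * (D : ℝ) ^ t) * r0 := by
          refine mul_le_mul_of_nonneg_right (mul_le_mul_of_nonneg_left h4 ?_) ?_ <;> positivity
      _ = (D : ℝ) ^ t * ((C0 : ℝ) * (N : ℝ) ^ δ * r0) := by ring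
  have h7 : (N : ℝ) ≤ (C0 : ℝ) * (N : ℝ) ^ δ * r0 := le_of_mul_le_mul_left h6 hDpos
  have hNδ : (0 : ℝ) < (N : ℝ) ^ δ := Real.rpow_pos_of_pos hNpos δ
  rw [Real.rpow_sub hNpos, Real.rpow_one, div_le_iff₀ hNδ]
  calc (N : ℝ) ≤ (C0 : ℝ) * (N : ℝ) ^ δ * r0 := h7
    _ = (C0 : ℝ) * r0 * (N : ℝ) ^ δ := by ring

end Vale.Agent.P042.LB.Sq409

namespace Vale.Agent.P042.LB

open Polynomial Finset Sq409

/-- For squarefree `g` of degree `d ≥ 1` and `a ≥ 1`, the polynomial `h = a * g ^ 2` of degree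
`k = 2 * d` satisfies `r_h(N) ≥ c * N ^ (1 - 0.5012 / (k + 0.0525))`. -/
theorem lb_sq (g : ℤ[X]) (hg : Squarefree (g.map (Int.castRingHom ℚ)))
    (hd : 1 ≤ g.natDegree) (a : ℤ) (ha : 0 < a) :
    ∃ c : ℝ, 0 < c ∧ ∀ N : ℕ, 1 ≤ N →
      c * (N : ℝ) ^ (1 - 0.5012 / (((2 * g.natDegree : ℕ) : ℝ) + 0.0525)) ≤
        (rMax (C a * g ^ 2) N : ℝ) := by
  obtain ⟨C0, hC0, hmain⟩ := main_real g hg hd
  obtain ⟨b, rfl⟩ := Int.eq_ofNat_of_zero_le ha.le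
  have hb : 0 < b := by exact_mod_cast ha
  set δ : ℝ := (87646 : ℝ) / ((9200 + 349749 * g.natDegree : ℕ) : ℝ) with hδ
  set η : ℝ := 1 - 0.5012 / (((2 * g.natDegree : ℕ) : ℝ) + 0.0525) with hη
  have hdr : (1 : ℝ) ≤ (g.natDegree : ℝ) := by exact_mod_cast hd
  have hηδ : η ≤ 1 - δ := by
    rw [hη, hδ]
    push_cast
    have h1 : (0 : ℝ) < 2 * (g.natDegree : ℝ) + 0.0525 := by linarith
    have h2 : (0 : ℝ) < 9200 + 349749 * (g.natDegree : ℝ) := by linarith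
    have h3 : (87646 : ℝ) / (9200 + 349749 * (g.natDegree : ℝ)) ≤
        0.5012 / (2 * (g.natDegree : ℝ) + 0.0525) := by
      rw [div_le_div_iff₀ h2 h1]
      nlinarith
    linarith
  have hη0 : 0 ≤ η := by
    rw [hη]
    push_cast
    have h1 : (0 : ℝ) < 2 * (g.natDegree : ℝ) + 0.0525 := by linarith
    have h3 : 0.5012 / (2 * (g.natDegree : ℝ) + 0.0525) ≤ 1 := by
      rw [div_le_one h1]; linarith
    linarith
  have hη1 : η ≤ 1 := by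
    rw [hη]
    have h1 : (0 : ℝ) ≤ 0.5012 / (((2 * g.natDegree : ℕ) : ℝ) + 0.0525) := by positivity
    linarith
  have hbr : (1 : ℝ) ≤ b := by exact_mod_cast hb
  have hC0r : (1 : ℝ) ≤ C0 := by exact_mod_cast hC0
  refine ⟨(11 * b * C0 : ℝ)⁻¹, by positivity, fun N hN => ?_⟩
  have hNr : (1 : ℝ) ≤ N := by exact_mod_cast hN
  rw [inv_mul_le_iff₀ (by positivity)]
  by_cases hNb : N < 11 * b
  · have h1 : (1 : ℝ) ≤ (rMax (C (b : ℤ) * g ^ 2) N : ℝ) := by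
      exact_mod_cast one_le_rMax _ N hN
    have h2 : (N : ℝ) ≤ 11 * b := by exact_mod_cast hNb.le
    calc (N : ℝ) ^ η ≤ (N : ℝ) ^ (1 : ℝ) := Real.rpow_le_rpow_of_exponent_le hNr hη1
      _ = N := Real.rpow_one _
      _ ≤ 11 * b := h2
      _ ≤ 11 * b * C0 * (rMax (C (b : ℤ) * g ^ 2) N : ℝ) := by
          have h3 : (1 : ℝ) ≤ C0 * (rMax (C (b : ℤ) * g ^ 2) N : ℝ) := by nlinarith
          have h4 : (0 : ℝ) ≤ 11 * b := by positivity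
          nlinarith
  · have hNb' : 11 * b ≤ N := Nat.le_of_not_lt hNb
    set N' : ℕ := N / b with hN'
    have hN'11 : 11 ≤ N' := (Nat.le_div_iff_mul_le hb).2 hNb'
    have h1 := hmain N' hN'11
    have h2 : rMax (g ^ 2) N' ≤ rMax (C (b : ℤ) * g ^ 2) N := by
      refine rMax_dilate _ _ ha _ _ ?_
      exact_mod_cast Nat.mul_div_le N b
    have h2r : (rMax (g ^ 2) N' : ℝ) ≤ (rMax (C (b : ℤ) * g ^ 2) N : ℝ) := by exact_mod_cast h2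
    have h3 : N ≤ 2 * b * N' := by
      have h4 := Nat.lt_mul_div_succ N hb
      rw [← hN'] at h4
      nlinarith
    have h3r : (N : ℝ) ≤ (2 * b) * N' := by exact_mod_cast h3
    have hN'r : (1 : ℝ) ≤ N' := by exact_mod_cast (by omega : 1 ≤ N')
    calc (N : ℝ) ^ η ≤ ((2 * b) * N' : ℝ) ^ η := Real.rpow_le_rpow (by positivity) h3r hη0
      _ = (2 * b : ℝ) ^ η * (N' : ℝ) ^ η := Real.mul_rpow (by positivity) (by positivity)
      _ ≤ (2 * b : ℝ) ^ (1 : ℝ) * (N' : ℝ) ^ (1 - δ) := by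
          refine mul_le_mul ?_ ?_ (by positivity) (by positivity)
          · exact Real.rpow_le_rpow_of_exponent_le (by linarith) hη1
          · exact Real.rpow_le_rpow_of_exponent_le hN'r hηδ
      _ = (2 * b : ℝ) * (N' : ℝ) ^ (1 - δ) := by rw [Real.rpow_one]
      _ ≤ (2 * b : ℝ) * ((C0 : ℝ) * (rMax (g ^ 2) N' : ℝ)) :=
          mul_le_mul_of_nonneg_left h1 (by positivity)
      _ ≤ (2 * b : ℝ) * ((C0 : ℝ) * (rMax (C (b : ℤ) * g ^ 2) N : ℝ)) := by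
          refine mul_le_mul_of_nonneg_left (mul_le_mul_of_nonneg_left h2r ?_) ?_ <;> positivity
      _ ≤ (11 * b : ℝ) * ((C0 : ℝ) * (rMax (C (b : ℤ) * g ^ 2) N : ℝ)) := by
          refine mul_le_mul_of_nonneg_right ?_ (by positivity)
          linarith
      _ = 11 * b * C0 * (rMax (C (b : ℤ) * g ^ 2) N : ℝ) := by ring

end Vale.Agent.P042.LB
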